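import Vale.Agent.P088.R2.H710.EP.GQ
import Vale.Agent.P088.R2.H222.PkT

/-!
# P088, stage 3, EST': the true weight against the flat weight (`C¹`)

`u_eq`: for `|x - y| ≥ 3` the correction of the level is absent. `W_W0`: where `u = u₀` nearby,
`|D (W - W₀)| ≤ C ε e^(u₀)`.
-/

open Set Filter
open scoped ContDiff Topology

noncomputable section

namespace Vale.Agent.P088.R2.H710.GP

open Vale.Agent.P088.LR Vale.Agent.P088.HY Vale.Agent.P088.R2.H31.EP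
open Vale.Agent.P088.R2.H475
open Vale.Agent.P088.R2.H404.INF
open Vale.Agent.P088.R2.H464.Cu (mid dif rq)
open Vale.Agent.P088.R2.H606.EP (prS₁ prS₂ prS_d1 prS_d2)

variable {n : ℕ} {q : Cst} {d : Pk n} {z : VV n}

/-! ## The constant of the profile -/

/-- The bound of `S'`, `S''` on `[0, 2 (3 p₁)²]`. -/
theorem exAS (e₁ : ℝ) : ∃ A : ℝ, 0 ≤ A ∧ (0 < e₁ → ∀ s ∈ Icc (0 : ℝ) (2 * (3 * prP e₁ (1 / 4)) ^ 2),
    |prS₁ e₁ s| ≤ A ∧ |prS₂ e₁ s| ≤ A) := by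
  by_cases h : 0 < e₁
  · have h1 : Continuous (prS₁ e₁) := by
      have h2 : prS₁ e₁ = deriv (prS e₁) := funext fun s => ((prS_d1 h s).deriv).symm
      rw [h2]
      exact (contDiff_infty_iff_deriv.1 (H606.EP.prS_sm h)).2.continuous
    have h3 : Continuous (prS₂ e₁) := (H606.EP.prS₂_sm h).continuous
    obtain ⟨A, hA⟩ := isCompact_Icc.exists_bound_of_continuousOn
      (s := Icc (0 : ℝ) (2 * (3 * prP e₁ (1 / 4)) ^ 2)) h1.continuousOn
    obtain ⟨B, hB⟩ := isCompact_Icc.exists_bound_of_continuousOn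
      (s := Icc (0 : ℝ) (2 * (3 * prP e₁ (1 / 4)) ^ 2)) h3.continuousOn
    refine ⟨max 0 (max A B), le_max_left _ _, fun _ s hs => ⟨?_, ?_⟩⟩
    · exact (hA s hs).trans ((le_max_left _ _).trans (le_max_right _ _))
    · exact (hB s hs).trans ((le_max_right _ _).trans (le_max_right _ _))
  · exact ⟨0, le_rfl, fun h' => absurd h' h⟩

/-- The bound of `S'`, `S''`. -/
def AS (e₁ : ℝ) : ℝ := (exAS e₁).choose

theorem AS_nn (e₁ : ℝ) : 0 ≤ AS e₁ := (exAS e₁).choose_spec.1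

theorem AS_1 {e₁ s : ℝ} (h : 0 < e₁) (hs : s ∈ Icc (0 : ℝ) (2 * (3 * prP e₁ (1 / 4)) ^ 2)) :
    |prS₁ e₁ s| ≤ AS e₁ := ((exAS e₁).choose_spec.2 h s hs).1

theorem AS_2 {e₁ s : ℝ} (h : 0 < e₁) (hs : s ∈ Icc (0 : ℝ) (2 * (3 * prP e₁ (1 / 4)) ^ 2)) :
    |prS₂ e₁ s| ≤ AS e₁ := ((exAS e₁).choose_spec.2 h s hs).2

theorem lip {f f' : ℝ → ℝ} {a b K A : ℝ} (hf : ∀ s, HasDerivAt f (f' s) s)
    (hA : ∀ s ∈ Icc (0 : ℝ) K, |f' s| ≤ A) (ha : a ∈ Icc (0 : ℝ) K) (hb : b ∈ Icc (0 : ℝ) K) :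
    |f a - f b| ≤ A * |a - b| := by
  have h := Convex.norm_image_sub_le_of_norm_hasDerivWithin_le (s := Icc (0 : ℝ) K)
    (f := f) (f' := f') (C := A) (fun s _ => (hf s).hasDerivWithinAt)
    (fun s hs => hA s hs) (convex_Icc _ _) hb ha
  exact h

/-! ## The distance -/

/-- The conditions on the constants. -/
structure GD (n : ℕ) (q : Cst) : Prop extends GC q where
  ε0 : 0 < q.ε
  ε1 : q.ε ≤ 1
  εn : n * q.ε ≤ 1 / 2
  ε2 : 2 * n ^ 2 * q.ε ≤ 1 / 2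
  rd : 2 * (3 * q.p₁) ^ 2 < (q.r₁ * Real.exp (-1)) ^ 2

theorem tri_qq (z : VV n) : H222.qq z = qq z := rfl

/-- The constant of the derivatives of the distance. -/
def c1e (n : ℕ) (e₁ : ℝ) : ℝ := H222.c1 n 1 (3 * prP e₁ (1 / 4))

theorem c1e_nn (n : ℕ) {e₁ : ℝ} (h : 0 ≤ prP e₁ (1 / 4)) : 0 ≤ c1e n e₁ :=
  H222.c1_nonneg (by linarith)

/-- The set of the short pairs. -/
def US (q : Cst) : Set (VV n) := {z | qq z < (3 * q.p₁) ^ 2}

theorem bk_dist (hq : GD n q) (h : PkOk q d) :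
    H222.Bk 1 (US q) (c1e n q.e₁ * (H222.cG n 1 * q.ε)) (fun z : VV n => r2 (gi d.s₁) z - qq z) := by
  have hp := Cst.p₁_ge hq.rad
  have hR : 1 ≤ q.R := hq.inf.R1
  have h1 := H222.ck_gi (k := 1) h hR hq.ε0.le (by norm_num) hq.ε1 hq.εn
  have ho : IsOpen (US q : Set (VV n)) := isOpen_lt H222.continuous_qq continuous_const
  exact H222.bk_r2_sub (k := 1) (r0 := 3 * q.p₁) ho (by linarith) (fun z hz => le_of_lt hz)
    (O := univ) (fun _ _ => mem_univ _) h1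

theorem dist_le (hq : GD n q) (h : PkOk q d) (z : VV n) :
    |r2 (gi d.s₁) z - qq z| ≤ 1 / 2 * qq z := by
  have h1 := h.rq_close hq.εn z
  have h2 := qq_nonneg z
  refine h1.trans (mul_le_mul_of_nonneg_right hq.ε2 h2)

theorem mem_US (hq : GD n q) (h1 : rr z ≤ 2 * q.p₁) : z ∈ (US q : Set (VV n)) := by
  have hp := Cst.p₁_ge hq.rad
  show qq z < (3 * q.p₁) ^ 2
  rw [← rr_sq]
  exact pow_lt_pow_left₀ (by linarith) (rr_nn z) (by norm_num)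

/-- For `|x - y| ≥ 3` the correction of the level is absent. -/
theorem u_eq (hq : GD n q) (h : PkOk q d) (h3 : 3 ≤ rr z) : ∀ᶠ w in 𝓝 z, d.u q w = d.u0 w := by
  have h1 := dist_le hq h z
  have h2 : 9 ≤ qq z := by
    rw [← rr_sq]
    nlinarith
  have h4 : 4 < r2 (gi d.s₁) z := by
    have := (abs_le.1 h1).1
    linarith
  have hc : Continuous (r2 (gi d.s₁) : VV n → ℝ) := by
    have := (h.rq_sm hq.εn).continuous
    unfold r2
    exact continuous_const.mul this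
  filter_upwards [(isOpen_lt continuous_const hc).mem_nhds h4] with w hw
  have e : (d.F q).χ (r2 (gi d.s₁) w) = 0 := h.χ0 _ (le_of_lt hw)
  show H31.EP.uu (d.F q) d.l (gi d.s₁) w = _
  unfold H31.EP.uu
  rw [e]
  unfold Pk.u0
  ring

/-- The weight near a short pair without correction. -/
theorem W_eq (hq : GD n q) (h : PkOk q d) (hn : NO q d z) (h1 : z ∈ (US q : Set (VV n)))
    (hu : ∀ᶠ w in 𝓝 z, d.u q w = d.u0 w) : ∀ᶠ w in 𝓝 z, d.W q w =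
      d.Φ (d.u0 w) + Real.exp (d.u0 w) * prS q.e₁ (r2 (gi d.s₁) w) := by
  have hR := hq.inf.R0
  have a1 := (gl_le hq.inf h).1 hn.g1
  have a2 := (gl_le hq.inf h).1 hn.g2
  have ho : IsOpen (US q : Set (VV n)) := isOpen_lt H222.continuous_qq continuous_const
  filter_upwards [W_near hR h (z := z) (by linarith) (by linarith), hu, ho.mem_nhds h1]
    with w h2 h3 h4
  rw [h2.2.2.2.2]
  have h5 := dist_le hq h w
  have h6 : r2 (gi d.s₁) w < (q.r₁ * Real.exp (-1)) ^ 2 := by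
    have := (abs_le.1 h5).2
    have h7 : qq w < (3 * q.p₁) ^ 2 := h4
    have := hq.rd
    nlinarith
  have e3 : H31.EP.uu (d.F q) d.l (gi d.s₁) w = d.u0 w := h3
  unfold WW
  rw [e3, st_in' h.ok h6]
  show d.Φ (d.u0 w) + 1 * _ = _
  rw [one_mul]
  rfl

/-- The scale of the gradient of the weight. -/
def NT (d : Pk n) (q : Cst) (z : VV n) : ℝ :=
  deriv d.Φ (d.u0 z) + Real.exp (d.u0 z) * prS q.e₁ (r2 (gi d.s₁) z)

theorem r2_fd (hq : GD n q) (h : PkOk q d) (z : VV n) :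
    HasFDerivAt (r2 (gi d.s₁)) (fderiv ℝ (r2 (gi d.s₁)) z) z := by
  have : ContDiff ℝ ∞ (r2 (gi d.s₁) : VV n → ℝ) := contDiff_const.mul (h.rq_sm hq.εn)
  exact ((this.differentiable (by simp)) z).hasFDerivAt

theorem fd_W (hq : GD n q) (h : PkOk q d) (hn : NO q d z) (h1 : z ∈ (US q : Set (VV n)))
    (hu : ∀ᶠ w in 𝓝 z, d.u q w = d.u0 w) (v : VV n) :
    fderiv ℝ (d.W q) z v = NT d q z * fderiv ℝ d.u0 z v +
      Real.exp (d.u0 z) * (prS₁ q.e₁ (r2 (gi d.s₁) z) * fderiv ℝ (r2 (gi d.s₁)) z v) := by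
  have hu0 := u0_fd h z
  have hΦ : HasDerivAt d.Φ (deriv d.Φ (d.u0 z)) (d.u0 z) :=
    ((h.Φs.differentiable (by simp)) _).hasDerivAt
  have h2 := hΦ.comp_hasFDerivAt z hu0
  have h3 := hu0.exp
  have h4 := (prS_d1 hq.rad.e0 (r2 (gi d.s₁) z)).comp_hasFDerivAt z (r2_fd hq h z)
  have h5 := h2.add (h3.mul h4)
  have h6 : HasFDerivAt (d.W q) _ z := h5.congr_of_eventuallyEq (W_eq hq h hn h1 hu)
  rw [h6.fderiv, hu0.fderiv]
  simp only [add_apply, smul_apply, smul_eq_mul, Function.comp_apply]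
  unfold NT
  ring

theorem fd_W0' (h : PkOk q d) (he : 0 < q.e₁) (z v : VV n) :
    fderiv ℝ (d.W0 q) z v = d.NG q z * fderiv ℝ d.u0 z v +
      Real.exp (d.u0 z) * (prS₁ q.e₁ (qq z) * fderiv ℝ (fun z : VV n => qq z) z v) := by
  rw [fd_W0 h he, (u0_fd h z).fderiv, (qq_fd z).fderiv, Qd_apply]
  simp only [add_apply, ContinuousLinearMap.comp_apply, ContinuousLinearMap.coe_fst',
    ContinuousLinearMap.coe_snd']
  unfold cq
  ring

/-- `|D_v (W - W₀)|`, exact. -/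
theorem fd_sub (hq : GD n q) (h : PkOk q d) (hn : NO q d z) (h1 : z ∈ (US q : Set (VV n)))
    (hu : ∀ᶠ w in 𝓝 z, d.u q w = d.u0 w) (v : VV n) :
    fderiv ℝ (d.W q) z v - fderiv ℝ (d.W0 q) z v = Real.exp (d.u0 z) *
      ((prS q.e₁ (r2 (gi d.s₁) z) - prS q.e₁ (qq z)) * fderiv ℝ d.u0 z v +
        ((prS₁ q.e₁ (r2 (gi d.s₁) z) - prS₁ q.e₁ (qq z)) * fderiv ℝ (r2 (gi d.s₁)) z v +
          prS₁ q.e₁ (qq z) * fderiv ℝ (fun z => r2 (gi d.s₁) z - qq z) z v)) := by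
  rw [fd_W hq h hn h1 hu, fd_W0' h hq.rad.e0]
  have e : fderiv ℝ (fun z => r2 (gi d.s₁) z - qq z) z v =
      fderiv ℝ (r2 (gi d.s₁)) z v - fderiv ℝ (fun z : VV n => qq z) z v := by
    have h2 : HasFDerivAt (fun z => r2 (gi d.s₁) z - qq z)
        (fderiv ℝ (r2 (gi d.s₁)) z - Qd z) z := (r2_fd hq h z).sub (qq_fd z)
    rw [h2.fderiv, (qq_fd z).fderiv]
    rfl
  rw [e]
  unfold NT Pk.NG Pk.G0
  ring

/-! ## The bound -/

/-- The bound of the distance and of its first derivative. -/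
def kD (n : ℕ) (e₁ : ℝ) : ℝ := c1e n e₁ * H222.cG n 1

/-- The constant. -/
def CW (n : ℕ) (e₁ : ℝ) : ℝ :=
  AS e₁ * kD n e₁ * (4 * n + (kD n e₁ + 12 * n * prP e₁ (1 / 4)) + 1)

theorem kD_nn (hq : GD n q) : 0 ≤ kD n q.e₁ := by
  have hp := Cst.p₁_ge hq.rad
  exact mul_nonneg (c1e_nn n (by unfold Cst.p₁ at hp; linarith)) (H222.cG_nonneg n 1)

theorem CW_nn (hq : GD n q) : 0 ≤ CW n q.e₁ := by
  have h1 := kD_nn hq
  have h2 := AS_nn q.e₁
  have hp := Cst.p₁_ge hq.rad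
  unfold Cst.p₁ at hp
  have h3 : 0 ≤ prP q.e₁ (1 / 4) := by linarith
  unfold CW
  positivity

theorem dist_0 (hq : GD n q) (h : PkOk q d) (h1 : z ∈ (US q : Set (VV n))) :
    |r2 (gi d.s₁) z - qq z| ≤ kD n q.e₁ * q.ε := by
  have := (bk_dist hq h).b 0 (by norm_num) z h1
  rw [norm_iteratedFDeriv_zero, Real.norm_eq_abs] at this
  refine this.trans (le_of_eq ?_)
  unfold kD
  ring

theorem dist_1 (hq : GD n q) (h : PkOk q d) (h1 : z ∈ (US q : Set (VV n))) (v : VV n) :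
    |fderiv ℝ (fun z => r2 (gi d.s₁) z - qq z) z v| ≤ kD n q.e₁ * q.ε * ‖v‖ := by
  have h2 := (bk_dist hq h).b 1 le_rfl z h1
  rw [← norm_fderiv_iteratedFDeriv] at h2
  have h3 : ‖fderiv ℝ (fun z => r2 (gi d.s₁) z - qq z) z‖ ≤ kD n q.e₁ * q.ε := by
    have h4 := (bk_dist hq h).b 1 le_rfl z h1
    rw [norm_iteratedFDeriv_one] at h4
    refine h4.trans (le_of_eq ?_)
    unfold kD
    ring
  have h5 := (fderiv ℝ (fun z => r2 (gi d.s₁) z - qq z) z).le_opNorm v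
  rw [Real.norm_eq_abs] at h5
  exact h5.trans (mul_le_mul_of_nonneg_right h3 (norm_nonneg _))

theorem Qd_le (h1 : z ∈ (US q : Set (VV n))) (hp : 0 ≤ q.p₁) (v : VV n) :
    |Qd z v| ≤ 12 * n * q.p₁ * ‖v‖ := by
  rw [Qd_apply, abs_mul, abs_two]
  have h2 : ∀ i, |(z.1 i - z.2 i) * (v.1 i - v.2 i)| ≤ 3 * q.p₁ * (2 * ‖v‖) := by
    intro i
    rw [abs_mul]
    have a1 : |z.1 i - z.2 i| ≤ 3 * q.p₁ := by
      refine abs_le_of_sq_le_sq ?_ (by linarith)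
      have : (z.1 i - z.2 i) ^ 2 ≤ qq z := by
        rw [qq_eq]
        exact Finset.single_le_sum (f := fun i => (z.1 i - z.2 i) ^ 2) (fun j _ => sq_nonneg _)
          (Finset.mem_univ i)
      exact this.trans (le_of_lt h1)
    have a2 : |v.1 i - v.2 i| ≤ 2 * ‖v‖ := by
      have b1 : ‖v.1 i‖ ≤ ‖v‖ := (norm_le_pi_norm v.1 i).trans (norm_fst_le v)
      have b2 : ‖v.2 i‖ ≤ ‖v‖ := (norm_le_pi_norm v.2 i).trans (norm_snd_le v)
      have b3 := norm_sub_le (v.1 i) (v.2 i)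
      rw [Real.norm_eq_abs] at b3
      linarith
    exact mul_le_mul a1 a2 (abs_nonneg _) (by positivity)
  have h3 : |∑ i, (z.1 i - z.2 i) * (v.1 i - v.2 i)| ≤ ∑ _i : Fin n, 3 * q.p₁ * (2 * ‖v‖) :=
    (Finset.abs_sum_le_sum_abs _ _).trans (Finset.sum_le_sum fun i _ => h2 i)
  rw [Finset.sum_const, Finset.card_univ, Fintype.card_fin, nsmul_eq_mul] at h3
  linarith

theorem fd_gl (l : V n → ℝ) (x a : V n) : |fderiv ℝ l x a| ≤ n * (en (gl l x) * ‖a‖) := by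
  have e : fderiv ℝ l x a = ∑ i, a i * pd i l x := by
    have h := LinearMap.pi_apply_eq_sum_univ (fderiv ℝ l x : V n →ₗ[ℝ] ℝ) a
    have h2 : ∀ i : Fin n, (fun j => if i = j then (1 : ℝ) else 0) = Pi.single i 1 := by
      intro i
      funext j
      simp [Pi.single_apply, eq_comm]
    simp only [h2] at h
    exact h
  rw [e]
  have h1 : ∀ i, |a i * pd i l x| ≤ en (gl l x) * ‖a‖ := by
    intro i
    rw [abs_mul, mul_comm]
    refine mul_le_mul ?_ (norm_le_pi_norm a i) (abs_nonneg _) (en_nn _)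
    refine abs_le_of_sq_le_sq ?_ (en_nn _)
    rw [gl_sq]
    exact Finset.single_le_sum (f := fun i => pd i l x ^ 2) (fun j _ => sq_nonneg _)
      (Finset.mem_univ i)
  refine (Finset.abs_sum_le_sum_abs _ _).trans ((Finset.sum_le_sum fun i _ => h1 i).trans ?_)
  rw [Finset.sum_const, Finset.card_univ, Fintype.card_fin, nsmul_eq_mul]

theorem u0_le (hq : GD n q) (h : PkOk q d) (hn : NO q d z) (v : VV n) :
    |fderiv ℝ d.u0 z v| ≤ 4 * n * ‖v‖ := by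
  rw [(u0_fd h z).fderiv]
  simp only [add_apply, ContinuousLinearMap.comp_apply, ContinuousLinearMap.coe_fst',
    ContinuousLinearMap.coe_snd']
  have hσ := hq.inf.σ1
  have hn0 : (0 : ℝ) ≤ n := Nat.cast_nonneg n
  have key : ∀ (x a : V n), en (gl d.l x) ≤ 1 + 5 * q.σ → ‖a‖ ≤ ‖v‖ →
      |fderiv ℝ d.l x a| ≤ 2 * n * ‖v‖ := by
    intro x a hx ha
    refine (fd_gl d.l x a).trans ?_
    have h1 : en (gl d.l x) * ‖a‖ ≤ 2 * ‖v‖ :=
      mul_le_mul (by linarith) ha (norm_nonneg _) (by norm_num)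
    calc n * (en (gl d.l x) * ‖a‖) ≤ n * (2 * ‖v‖) := mul_le_mul_of_nonneg_left h1 hn0
      _ = 2 * n * ‖v‖ := by ring
  have k1 := key z.1 v.1 (gl_near hq.inf h hn.g1 hn.w1).2 (norm_fst_le v)
  have k2 := key z.2 v.2 (gl_near hq.inf h hn.g2 hn.w2).2 (norm_snd_le v)
  refine (abs_add_le _ _).trans ?_
  linarith

theorem in_K (hq : GD n q) (h : PkOk q d) (h1 : z ∈ (US q : Set (VV n))) :
    r2 (gi d.s₁) z ∈ Icc (0 : ℝ) (2 * (3 * prP q.e₁ (1 / 4)) ^ 2) ∧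
      qq z ∈ Icc (0 : ℝ) (2 * (3 * prP q.e₁ (1 / 4)) ^ 2) := by
  have h2 := abs_le.1 (dist_le hq h z)
  have h3 := qq_nonneg z
  have h4 : qq z < (3 * prP q.e₁ (1 / 4)) ^ 2 := h1
  exact ⟨⟨by linarith [h2.1], by linarith [h2.2]⟩, ⟨h3, by nlinarith⟩⟩

/-- **The true weight against the flat one.** -/
theorem W_W0 (hq : GD n q) (h : PkOk q d) (hn : NO q d z) (h1 : z ∈ (US q : Set (VV n)))
    (hu : ∀ᶠ w in 𝓝 z, d.u q w = d.u0 w) (v : VV n) :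
    |fderiv ℝ (d.W q) z v - fderiv ℝ (d.W0 q) z v| ≤
      CW n q.e₁ * q.ε * Real.exp (d.u0 z) * ‖v‖ := by
  rw [fd_sub hq h hn h1 hu, abs_mul, abs_of_pos (Real.exp_pos _)]
  have hp := Cst.p₁_ge hq.rad
  have e0 := hq.rad.e0
  have hε := hq.ε0
  have k0 := kD_nn hq
  have A0 := AS_nn q.e₁
  obtain ⟨m1, m2⟩ := in_K hq h h1
  have a1 := dist_0 hq h h1
  have a2 := dist_1 hq h h1 v
  have a3 := u0_le hq h hn v
  have b1 : |prS q.e₁ (r2 (gi d.s₁) z) - prS q.e₁ (qq z)| ≤ AS q.e₁ * (kD n q.e₁ * q.ε) :=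
    (lip (prS_d1 e0) (fun s hs => AS_1 e0 hs) m1 m2).trans (mul_le_mul_of_nonneg_left a1 A0)
  have b2 : |prS₁ q.e₁ (r2 (gi d.s₁) z) - prS₁ q.e₁ (qq z)| ≤ AS q.e₁ * (kD n q.e₁ * q.ε) :=
    (lip (prS_d2 e0) (fun s hs => AS_2 e0 hs) m1 m2).trans (mul_le_mul_of_nonneg_left a1 A0)
  have b3 : |prS₁ q.e₁ (qq z)| ≤ AS q.e₁ := AS_1 e0 m2
  have hv := norm_nonneg v
  have b4 : |fderiv ℝ (r2 (gi d.s₁)) z v| ≤ (kD n q.e₁ + 12 * n * q.p₁) * ‖v‖ := by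
    have h2 : HasFDerivAt (fun z => r2 (gi d.s₁) z - qq z)
        (fderiv ℝ (r2 (gi d.s₁)) z - Qd z) z := (r2_fd hq h z).sub (qq_fd z)
    rw [h2.fderiv] at a2
    have e : fderiv ℝ (r2 (gi d.s₁)) z v = (fderiv ℝ (r2 (gi d.s₁)) z - Qd z) v + Qd z v := by
      simp
    rw [e]
    have h3 := Qd_le (z := z) (q := q) h1 (by linarith) v
    have h4 : kD n q.e₁ * q.ε * ‖v‖ ≤ kD n q.e₁ * ‖v‖ :=
      mul_le_mul_of_nonneg_right (mul_le_of_le_one_right k0 hq.ε1) hv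
    refine (abs_add_le _ _).trans ?_
    linarith
  have c1 : |(prS q.e₁ (r2 (gi d.s₁) z) - prS q.e₁ (qq z)) * fderiv ℝ d.u0 z v| ≤
      AS q.e₁ * (kD n q.e₁ * q.ε) * (4 * n * ‖v‖) := by
    rw [abs_mul]
    exact mul_le_mul b1 a3 (abs_nonneg _) (by positivity)
  have c2 : |(prS₁ q.e₁ (r2 (gi d.s₁) z) - prS₁ q.e₁ (qq z)) * fderiv ℝ (r2 (gi d.s₁)) z v| ≤
      AS q.e₁ * (kD n q.e₁ * q.ε) * ((kD n q.e₁ + 12 * n * q.p₁) * ‖v‖) := by
    rw [abs_mul]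
    exact mul_le_mul b2 b4 (abs_nonneg _) (by positivity)
  have c3 : |prS₁ q.e₁ (qq z) * fderiv ℝ (fun z => r2 (gi d.s₁) z - qq z) z v| ≤
      AS q.e₁ * (kD n q.e₁ * q.ε * ‖v‖) := by
    rw [abs_mul]
    exact mul_le_mul b3 a2 (abs_nonneg _) A0
  have c4 := (abs_add_le _ _).trans (add_le_add c1 ((abs_add_le _ _).trans (add_le_add c2 c3)))
  have c5 := mul_le_mul_of_nonneg_left c4 (Real.exp_pos (d.u0 z)).le
  refine c5.trans (le_of_eq ?_)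
  unfold CW Cst.p₁
  ring

end Vale.Agent.P088.R2.H710.GP
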