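import Vale.Agent.P088.R2.H509.EP.DW
import Vale.Agent.P088.R2.H932.EP.Pk2
import Vale.Agent.P088.R2.H710.EP.GR

/-!
# P088, stage 3, EST': the derivatives of the cut-offs of the passes

`chP`: `|D χ|, |D² χ| ≤ B` for `χ = ch P1`, `ch P2` (where `tinf ≤ 0`), `B` a function of the
constants before `c'`; `chP0`: where the tube is alive, with `B` a function of the constants
before `rT`.
-/

open Set Filter
open scoped ContDiff Topology

noncomputable section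

namespace Vale.Agent.P088.R2.H710.DC

open Vale.Agent.P088.LR Vale.Agent.P088.HY Vale.Agent.P088.R2.H31.EP
open Vale.Agent.P088.R2.H710.GP
open Vale.Agent.P088.R2.H867.EP
open Vale.Agent.P088.R2.H932.EP (JB J1 jb_cmp NrC evNr cSt cSt_one)
open Vale.Agent.P088.R2.H509.Jet Vale.Agent.P088.R2.H509.TG Vale.Agent.P088.R2.H509.DW
open Vale.Agent.P088.R2.H404.INF (InfC evInf)
open Vale.Agent.P088.R2.H464.Cu (rq)

variable {n : ℕ} {q : Cst} {d : Pk n} {z : VV n}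

/-! ## The constants -/

theorem evD (n : ℕ) : EvC (GD n) := by
  have hn : (0 : ℝ) ≤ n := Nat.cast_nonneg n
  have h1 : EvC fun q => q.ε ≤ 1 / (4 * (n + 1) ^ 2) :=
    EvC.at_ε (fun _ t => t ≤ 1 / (4 * (n + 1) ^ 2)) fun _ => sml_le (by positivity)
  have h2 : EvC fun q => 0 < q.c' → 2 * (3 * q.p₁) ^ 2 < (q.r₁ * Real.exp (-1)) ^ 2 := by
    refine EvC.at_M₀ (fun q t => 0 < q.c' → 2 * (3 * q.p₁) ^ 2 <
      (q.c' * t / 2 * Real.exp (-1)) ^ 2) fun q => ?_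
    by_cases h : 0 < q.c'
    · have h3 : Tendsto (fun t : ℝ => (q.c' * Real.exp (-1) / 2) * t) atTop atTop :=
        tendsto_id.const_mul_atTop (by positivity)
      have h4 := (tendsto_pow_atTop (two_ne_zero)).comp h3
      refine (h4.eventually_gt_atTop (2 * (3 * q.p₁) ^ 2)).mono fun t ht _ => ?_
      simp only [Function.comp_apply] at ht
      refine ht.trans_le (le_of_eq ?_)
      ring
    · exact Eventually.of_forall fun _ h1 => absurd h1 h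
  refine (((evG.and EvC.pos).and h1).and h2).mono ?_
  rintro q ⟨⟨⟨g, p⟩, h3⟩, h4⟩
  have hε : 0 < q.ε := p.2.2.2.2.1
  have hc : 0 < q.c' := p.2.1.2.2.1
  have h5 : q.ε * (4 * (n + 1) ^ 2) ≤ 1 := by rwa [le_div_iff₀ (by positivity)] at h3
  exact ⟨g, hε, by nlinarith, by nlinarith, by nlinarith, h4 hc⟩

theorem p₁_big (h : H509.Rad.Ok q.e₁ rp) : 400 ≤ q.p₁ := by
  have h1 := h.gr_le (t := 1 / 4) (by norm_num)
  have h2 := h.one_le (t := 1 / 4) (by norm_num)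
  have h3 := h.L_le le_rfl h2 h1
  have h4 := h.num.trans (h.big h2 h3)
  refine le_trans ?_ h4
  rw [le_div_iff₀ h.e0]
  linarith [h.e1]

/-! ## Directions -/

/-- The coordinate directions. -/
def ex : Fin n ⊕ Fin n → VV n
  | Sum.inl i => (Pi.single i 1, 0)
  | Sum.inr i => (0, Pi.single i 1)

theorem norm_ex (i : Fin n ⊕ Fin n) : ‖(ex i : VV n)‖ ≤ 1 := by
  rcases i with i | i
  · show ‖((Pi.single i 1, 0) : VV n)‖ ≤ 1
    rw [Prod.norm_def, norm_zero, max_eq_left (norm_nonneg _)]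
    exact (H932.EP.norm_single i).le
  · show ‖((0, Pi.single i 1) : VV n)‖ ≤ 1
    rw [Prod.norm_def, norm_zero, max_eq_right (norm_nonneg _)]
    exact (H932.EP.norm_single i).le

/-- First and second derivatives in the coordinate directions. -/
abbrev JX (f : VV n → ℝ) (a b : ℝ) (z : VV n) : Prop := JB ex (fun _ => 1) f a b z

theorem JX.le {f : VV n → ℝ} {a b a' b' : ℝ} (h : JX f a b z) (ha : a ≤ a') (hb : b ≤ b') :
    JX f a' b' z := h.mono (fun _ => zero_le_one) ha hb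

theorem jx_D1 {f : VV n → ℝ} {B : ℝ} (hf : ContDiff ℝ ∞ f) (h : D1 2 B f z) : JX f B B z := by
  have hB : 0 ≤ B := (norm_nonneg _).trans (h 1 le_rfl (by norm_num))
  refine ⟨hf.contDiffAt.of_le (WithTop.coe_le_coe.2 le_top), fun i => ?_, fun i j => ?_⟩
  · refine (h.dir (by norm_num) (ex i)).trans ?_
    exact mul_le_mul_of_nonneg_left (norm_ex i) hB
  · refine (h.dir2 hf le_rfl (ex i) (ex j)).trans ?_
    have := mul_le_mul (norm_ex (n := n) i) (norm_ex (n := n) j) (norm_nonneg _) zero_le_one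
    nlinarith

/-! ## The distance -/

/-- The constant. -/
def Cr (n : ℕ) (q : Cst) : ℝ :=
  H222.c1 n 2 (3 * q.p₁) * H222.cG n 2 + Bq n 2 q

theorem Cr_nb (n : ℕ) : NB_rT (Cr n) := fun _ => rfl

theorem Cr_nn (hr : H509.Rad.Ok q.e₁ rp) : 0 ≤ Cr n q := by
  have hp := Cst.p₁_ge hr
  have h1 := H222.c1_nonneg (n := n) (k := 2) (r0 := 3 * q.p₁) (by linarith)
  have h2 := H222.cG_nonneg n 2
  have h3 := Bq_one (n := n) (k := 2) (q := q) (by linarith)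
  unfold Cr
  have := mul_nonneg h1 h2
  linarith

theorem jx_ρ (hq : GD n q) (h : PkOk q d) (h1 : z ∈ (US q : Set (VV n))) :
    JX (rq (gi d.s₁)) (Cr n q) (Cr n q) z := by
  have hp := Cst.p₁_ge hq.rad
  have hR : 1 ≤ q.R := hq.inf.R1
  have h2 := H222.ck_gi (k := 2) h hR hq.ε0.le (by norm_num) hq.ε1 hq.εn
  have ho : IsOpen (US q : Set (VV n)) := isOpen_lt H222.continuous_qq continuous_const
  have h3 : H222.Bk 2 (US q) (H222.c1 n 2 (3 * q.p₁) * (H222.cG n 2 * q.ε))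
      (fun z : VV n => r2 (gi d.s₁) z - qq z) :=
    H222.bk_r2_sub (k := 2) (r0 := 3 * q.p₁) ho (by linarith) (fun z hz => le_of_lt hz)
      (O := univ) (fun _ _ => mem_univ _) h2
  have hs : ContDiff ℝ ∞ (r2 (gi d.s₁) : VV n → ℝ) := contDiff_const.mul (h.rq_sm hq.εn)
  have k1 : D1 2 (H222.c1 n 2 (3 * q.p₁) * (H222.cG n 2 * q.ε))
      (fun z : VV n => r2 (gi d.s₁) z - qq z) z := fun j _ hj => h3.b j hj z h1
  have k2 : D1 2 (Bq n 2 q) (qq (n := n)) z := d1_qq (by linarith) (le_of_lt h1)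
  have k3 := D1.add (hs.sub qq_sm) qq_sm k1 k2
  have e : (fun y : VV n => r2 (gi d.s₁) y - qq y + qq y) = r2 (gi d.s₁) := by
    funext y
    ring
  rw [e] at k3
  have c1 := H222.c1_nonneg (n := n) (k := 2) (r0 := 3 * q.p₁) (by linarith)
  have c2 := H222.cG_nonneg n 2
  have k4 : D1 2 (Cr n q) (r2 (gi d.s₁) : VV n → ℝ) z := by
    refine k3.le ?_
    unfold Cr
    have h5 : H222.cG n 2 * q.ε ≤ H222.cG n 2 := mul_le_of_le_one_right c2 hq.ε1
    have := mul_le_mul_of_nonneg_left h5 c1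
    linarith
  have hC := Cr_nn (n := n) hq.rad
  have k5 := (jx_D1 hs k4).cmul (1 / 2)
  rw [abs_of_pos (by norm_num : (0 : ℝ) < 1 / 2)] at k5
  refine JX.le (JB.congr k5 (Eventually.of_forall fun y => ?_)) (by linarith) (by linarith)
  unfold r2
  ring

theorem jx_D {a b : ℝ} (hq : GD n q) (h : PkOk q d) (h1 : z ∈ (US q : Set (VV n)))
    (hab : 0 < b ^ 2 - a ^ 2) : JX (tauD a b (rq (gi d.s₁))) (2 / (b ^ 2 - a ^ 2) * Cr n q)
      (2 / (b ^ 2 - a ^ 2) * Cr n q) z := by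
  have k1 := ((jx_ρ hq h h1).cmul (2 / (b ^ 2 - a ^ 2))).addc (-(a ^ 2 / (b ^ 2 - a ^ 2)))
  rw [abs_of_pos (by positivity)] at k1
  refine JB.congr k1 (Eventually.of_forall fun y => ?_)
  unfold tauD
  ring

/-! ## The level -/

/-- The constants of the cut `rs`. -/
def Cs1 (n : ℕ) (q : Cst) : ℝ :=
  5 * cSt * (4 * n) + ((22 * cSt + 3 * cSt * |q.ph.Ct 1| + 8 * cSt ^ 2) * (4 * n) ^ 2 +
    5 * cSt * (4 * n))

theorem Cs1_nb (n : ℕ) : NB_rT (Cs1 n) := fun _ => rfl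

theorem Cs1_nn : 0 ≤ Cs1 n q := by
  have := cSt_one
  unfold Cs1
  positivity

theorem jx_rs (hq : GD n q) (hN : NrC n q) (h : PkOk q d) (h3 : 3 ≤ rr z)
    (hD : D1 2 (4 * n) d.u0 z) (hu : d.u0 z ≤ d.uta q) :
    JX (d.cv q .rs) (Cs1 n q) (Cs1 n q) z := by
  have cs := cSt_one
  have h1 := jx_D1 h.u0_sm hD
  have h2 := jb_cmp h1 (hN.j1_VS h hu)
  have h4 : JX (d.cv q .rs) _ _ z := JB.congr h2 ((u_eq hq h h3).mono fun y hy => by
    show (d.VS q (d.u q y) - 0) / 1 = _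
    rw [hy, sub_zero, div_one])
  have c0 := hN.Ct0 1
  have e0 : |q.ph.Ct 1| = q.ph.Ct 1 := abs_of_nonneg c0
  have x1 : 0 ≤ 5 * cSt * (4 * n) := by positivity
  have x2 : 0 ≤ (22 * cSt + 3 * cSt * q.ph.Ct 1 + 8 * cSt ^ 2) * (4 * n) ^ 2 := by positivity
  refine h4.le ?_ ?_
  · unfold Cs1
    rw [e0]
    linarith
  · unfold Cs1
    rw [e0]
    linarith

/-! ## Products -/

/-- The bound of a cut-off from the bounds of the cut variables. -/
def bF (C : ℝ) : ℝ := (16 * BF * C) ^ 2 + 16 * BF * C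

theorem bF_nn {C : ℝ} (hC : 0 ≤ C) : 0 ≤ bF C := by
  have := zero_le_one.trans Fl_PB.one
  unfold bF
  positivity

theorem card_path (k : Zo) : (path k).card ≤ 16 := by
  cases k <;> decide

theorem jx_ch (hL : LitSm q d) {k : Zo} {C : ℝ} (hC : 0 ≤ C)
    (hi : ∀ i ∈ path k, 0 < d.cv q i z → d.cv q i z < 1 → JX (d.cv q i) C C z) :
    JX (d.ch q k) (bF C) (bF C) z := by
  have hB := zero_le_one.trans Fl_PB.one
  have h1 : JX (d.ch q k) _ _ z := pr_JB (s := fun _ => 1) (fun _ => zero_le_one) Fl_PB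
    isOpen_univ (sd k) (path k) (fun i _ => (hL.cv i).contDiffOn) (mem_univ z)
    (α := fun _ => C) (β := fun _ => C) (fun i _ => hC) hi
  have h0 : 0 ≤ ∑ i ∈ path k, on (d.cv q i z) * C :=
    Finset.sum_nonneg fun i _ => mul_nonneg (on_nn _) hC
  have h2 : ∑ i ∈ path k, on (d.cv q i z) * C ≤ 16 * C := by
    have h3 : ∑ i ∈ path k, on (d.cv q i z) * C ≤ ∑ _i ∈ path k, C :=
      Finset.sum_le_sum fun i _ => mul_le_of_le_one_left hC (on_le _)
    refine h3.trans ?_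
    rw [Finset.sum_const, nsmul_eq_mul]
    exact mul_le_mul_of_nonneg_right (by exact_mod_cast card_path k) hC
  have h3 : BF * ∑ i ∈ path k, on (d.cv q i z) * C ≤ 16 * BF * C := by
    refine (mul_le_mul_of_nonneg_left h2 hB).trans (le_of_eq ?_)
    ring
  have h4 : BF ^ 2 * (∑ i ∈ path k, on (d.cv q i z) * C) ^ 2 ≤ (16 * BF * C) ^ 2 := by
    rw [← mul_pow]
    exact pow_le_pow_left₀ (mul_nonneg hB h0) h3 2
  refine JX.le h1 (h3.trans ?_) (add_le_add h4 h3)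
  unfold bF
  nlinarith [sq_nonneg (16 * BF * C)]

/-- The first derivatives of a cut-off. -/
theorem d1_ch (hL : LitSm q d) {k : Zo} {C : ℝ} {v : VV n} (hC : 0 ≤ C)
    (hi : ∀ i ∈ path k, 0 < d.cv q i z → d.cv q i z < 1 → |fderiv ℝ (d.cv q i) z v| ≤ C) :
    |fderiv ℝ (d.ch q k) z v| ≤ bF C := by
  have hB := zero_le_one.trans Fl_PB.one
  have h1 : |fderiv ℝ (d.ch q k) z v| ≤ _ := pr_d1 Fl_PB isOpen_univ (sd k) (path k)
    (fun i _ => (hL.cv i).contDiffOn) (mem_univ z) v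
  have h2 : A1 (path k) (d.cv q) v z ≤ ∑ _i ∈ path k, C := by
    refine Finset.sum_le_sum fun i hik => ?_
    by_cases ho : 0 < d.cv q i z ∧ d.cv q i z < 1
    · rw [on_one ho, one_mul]
      exact hi i hik ho.1 ho.2
    · rw [on_zero ho, zero_mul]
      exact hC
  rw [Finset.sum_const, nsmul_eq_mul] at h2
  have h3 : ((path k).card : ℝ) * C ≤ 16 * C :=
    mul_le_mul_of_nonneg_right (by exact_mod_cast card_path k) hC
  have h4 := mul_le_mul_of_nonneg_left (h2.trans h3) hB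
  refine h1.trans (h4.trans ?_)
  unfold bF
  nlinarith [sq_nonneg (16 * BF * C)]

/-! ## The passes -/

/-- Facts at the passes. -/
structure PA (q : Cst) (d : Pk n) (z : VV n) : Prop where
  dw : DWr q d z
  u : d.u0 z ≤ d.uta q
  us : z ∈ (US q : Set (VV n))
  r3 : 3 ≤ rr z
  r : q.p₁ ^ 2 ≤ d.r2 z

theorem pa_of (hq : GD n q) (hT : GT n q) (h : PkOk q d) (hL : LitSm q d) {k : Zo}
    (hk : k = .P1 ∨ k = .P2 ∨ k = .A2) (ha : d.ch q k z ≠ 0) : PA q d z := by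
  have h1 := off_reg hT h hL (k := k) (by
    rcases hk with rfl | rfl | rfl <;> simp [OffN]) ha
  have h2 := sd_P ha hk hL.cp
  have h3 := sd_nf ha (by
    rcases hk with rfl | rfl | rfl <;> (unfold Off; decide)) (by
    rcases hk with rfl | rfl | rfl <;> decide) hL.cp
  have h4 := abs_le.1 (dist_le hq h z)
  have hp := p₁_big hq.rad
  have e1 : r2 (gi d.s₁) z = d.r2 z := rfl
  rw [e1] at h4
  refine ⟨h1.1, by linarith [h1.2], ?_, ?_, h2⟩
  · show qq z < (3 * q.p₁) ^ 2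
    nlinarith [h4.1]
  · have h5 : 9 ≤ rr z ^ 2 := by
      rw [rr_sq]
      nlinarith [h4.2]
    have h6 := rr_nn z
    nlinarith

/-- The constants of the cuts `rp` and `far`. -/
def Cd1 (n : ℕ) (q : Cst) : ℝ := 2 / (q.p₂ ^ 2 - q.p₁ ^ 2) * Cr n q
def Cd2 (n : ℕ) (q : Cst) : ℝ := 2 / ((2 * q.p₁) ^ 2 - (3 / 2 * q.p₁) ^ 2) * Cr n q

/-- The constant at the passes. -/
def Cl (n : ℕ) (q : Cst) : ℝ :=
  Cs1 n q + |Cd1 n q| + |Cd2 n q| + |CF n 2 q| * (1 + 1 / (4 * q.rT) ^ 2)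

theorem Cl_nn : 0 ≤ Cl n q := by
  have := Cs1_nn (n := n) (q := q)
  unfold Cl
  positivity

theorem sq_p (hr : H509.Rad.Ok q.e₁ rp) : 0 < q.p₂ ^ 2 - q.p₁ ^ 2 ∧
    0 < (2 * q.p₁) ^ 2 - (3 / 2 * q.p₁) ^ 2 := by
  have h1 := Cst.p₁_ge hr
  have h2 := Cst.p₁_lt hr
  constructor <;> nlinarith

theorem not_r (hq : GD n q) (hT : GT n q) (hp : PA q d z) : ¬d.cv q .r z < 1 := by
  have h1 := hp.r
  have h2 := p₁_big hq.rad
  have h3 := hT.c0
  have h4 := hT.c1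
  intro hc
  have h5 : (2 * rq (gi d.s₁) z - q.c₀ ^ 2) / (3 * q.c₀ ^ 2) < 1 := hc
  rw [div_lt_one (by positivity)] at h5
  have e1 : d.r2 z = 2 * rq (gi d.s₁) z := rfl
  rw [e1] at h1
  nlinarith

/-- The paths of the passes. -/
theorem path_P {k : Zo} (hk : k = .P1 ∨ k = .P2) {i : Cut} (hi : i ∈ path k) :
    i = .inf ∨ i = .rs ∨ i = .r ∨ i = .far ∨ i = .rp ∨ i = .P1 ∨ i = .P2 := by
  rcases hk with rfl | rfl <;> cases i <;> revert hi <;> decide

/-- The region of the passes: all the conditions on the constants. -/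
structure PC (n : ℕ) (q : Cst) : Prop where
  gd : GD n q
  gt : GT n q
  nr : NrC n q
  db : ∀ d : Pk n, PkOk q d → ∀ z, DWr q d z → DB n 2 q d z (CF n 2 q)

theorem evPC (hn : 1 ≤ n) : EvC (PC n) := by
  refine (((evD n).and (evGT n)).and ((evNr n).and (evDB hn 2))).mono ?_
  rintro q ⟨⟨a1, a2⟩, a3, a4⟩
  exact ⟨a1, a2, a3, a4⟩

theorem jx_P (hq : PC n q) (h : PkOk q d) (hp : PA q d z) (ht : d.tinf q z ≤ 0)
    {i : Cut} (hi : i = .inf ∨ i = .rs ∨ i = .r ∨ i = .far ∨ i = .rp ∨ i = .P1 ∨ i = .P2)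
    (h0 : 0 < d.cv q i z) (h1 : d.cv q i z < 1) : JX (d.cv q i) (Cl n q) (Cl n q) z := by
  have hD := hq.db d h z hp.dw
  have s1 := sq_p hq.gd.rad
  have rT := hq.gd.rT0
  have c1 : 0 ≤ Cs1 n q := Cs1_nn
  have c2 : 0 ≤ |CF n 2 q| * (1 + 1 / (4 * q.rT) ^ 2) := by positivity
  have c3 := abs_nonneg (Cd1 n q)
  have c4 := abs_nonneg (Cd2 n q)
  have c5 := le_abs_self (Cd1 n q)
  have c6 := le_abs_self (Cd2 n q)
  have c7 : CF n 2 q * (1 + 1 / (4 * q.rT) ^ 2) ≤ |CF n 2 q| * (1 + 1 / (4 * q.rT) ^ 2) :=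
    mul_le_mul_of_nonneg_right (le_abs_self _) (by positivity)
  have hL := hq.nr.sm d h
  rcases hi with rfl | rfl | rfl | rfl | rfl | rfl | rfl
  · exact absurd h0 (not_lt.2 ht)
  · exact (jx_rs hq.gd hq.nr h hp.r3 hD.u hp.u).le (by unfold Cl; linarith)
      (by unfold Cl; linarith)
  · exact absurd h1 (not_r hq.gd hq.gt hp)
  · have h2 := jx_D (a := 3 / 2 * q.p₁) (b := 2 * q.p₁) hq.gd h hp.us s1.2
    have e : 2 / ((2 * q.p₁) ^ 2 - (3 / 2 * q.p₁) ^ 2) * Cr n q = Cd2 n q := rfl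
    rw [e] at h2
    exact JX.le h2 (by unfold Cl; linarith) (by unfold Cl; linarith)
  · have h2 := jx_D (a := q.p₁) (b := q.p₂) hq.gd h hp.us s1.1
    have e : 2 / (q.p₂ ^ 2 - q.p₁ ^ 2) * Cr n q = Cd1 n q := rfl
    rw [e] at h2
    exact JX.le h2 (by unfold Cl; linarith) (by unfold Cl; linarith)
  · exact JX.le (jx_D1 (hL.X .P1) (hD.tx (4 * q.rT) (by positivity)).d1)
      (by unfold Cl; linarith) (by unfold Cl; linarith)
  · exact JX.le (jx_D1 (hL.X .P2) (hD.ty (4 * q.rT) (by positivity)).d1)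
      (by unfold Cl; linarith) (by unfold Cl; linarith)

/-- **The cut-offs of the passes.** -/
theorem chP (hn : 1 ≤ n) : ∃ B : Cst → ℝ, NB_c' B ∧ (∀ q, 0 ≤ B q) ∧ EvC fun q =>
    ∀ d : Pk n, PkOk q d → ∀ z, d.tinf q z ≤ 0 → ∀ k : Zo, (k = .P1 ∨ k = .P2) →
      d.ch q k z ≠ 0 → JX (d.ch q k) (B q) (B q) z := by
  refine ⟨fun q => bF (Cl n q), fun _ => rfl, fun q => bF_nn Cl_nn, (evPC hn).mono ?_⟩
  intro q hq d h z ht k hk ha
  have hL := hq.nr.sm d h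
  have hp := pa_of hq.gd hq.gt h hL (k := k) (by tauto) ha
  exact jx_ch hL Cl_nn fun i hi h0 h1 => jx_P hq h hp ht (path_P hk hi) h0 h1

/-- Where the tube is alive, only the cut `rp` is on. -/
theorem jx_P0 (hq : PC n q) (h : PkOk q d) (hp : PA q d z) (ht : d.tinf q z ≤ 0)
    (hV : d.VS q (d.u q z) = 0) (hf : d.r2 z < (3 / 2 * q.p₁) ^ 2) {k : Zo}
    (hk : (k = .P1 ∧ d.tx q (4 * q.rT) z ≤ 0) ∨ (k = .P2 ∧ 1 ≤ d.tx q (4 * q.rT) z ∧
      d.ty q (4 * q.rT) z ≤ 0)) {i : Cut} (hi : i ∈ path k)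
    (h0 : 0 < d.cv q i z) (h1 : d.cv q i z < 1) :
    JX (d.cv q i) |Cd1 n q| |Cd1 n q| z := by
  have s1 := sq_p hq.gd.rad
  rcases path_P (k := k) (by tauto) hi with rfl | rfl | rfl | rfl | rfl | rfl | rfl
  · exact absurd h0 (not_lt.2 ht)
  · have e : d.cv q .rs z = (d.VS q (d.u q z) - 0) / 1 := rfl
    rw [e, hV] at h0
    norm_num at h0
  · exact absurd h1 (not_r hq.gd hq.gt hp)
  · exfalso
    have e : d.cv q .far z = (2 * rq (gi d.s₁) z - (3 / 2 * q.p₁) ^ 2) /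
      ((2 * q.p₁) ^ 2 - (3 / 2 * q.p₁) ^ 2) := rfl
    have e2 : d.r2 z = 2 * rq (gi d.s₁) z := rfl
    rw [e2] at hf
    rw [e] at h0
    have : (2 * rq (gi d.s₁) z - (3 / 2 * q.p₁) ^ 2) /
      ((2 * q.p₁) ^ 2 - (3 / 2 * q.p₁) ^ 2) ≤ 0 :=
      div_nonpos_of_nonpos_of_nonneg (by linarith) s1.2.le
    linarith
  · have h2 := jx_D (a := q.p₁) (b := q.p₂) hq.gd h hp.us s1.1
    exact JX.le h2 (le_abs_self _) (le_abs_self _)
  · exfalso
    have e : d.cv q .P1 z = d.tx q (4 * q.rT) z := rfl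
    rw [e] at h0 h1
    rcases hk with ⟨-, hk⟩ | ⟨-, hk, -⟩ <;> linarith
  · exfalso
    have e : d.cv q .P2 z = d.ty q (4 * q.rT) z := rfl
    rw [e] at h0 h1
    rcases hk with ⟨rfl, -⟩ | ⟨-, -, hk⟩
    · revert hi
      decide
    · linarith

/-- `tx (4 rT) ≤ 0` where `|W0_x| ≤ 2 rT NG`. -/
theorem tx_le0 (hT : 0 < q.rT) (hN : 0 < d.NG q z) (hg : en (gx d q z) ≤ 2 * q.rT * d.NG q z) :
    d.tx q (4 * q.rT) z ≤ 0 := by
  unfold Pk.tx
  rw [sq_gx]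
  have h0 : 0 < (4 * q.rT * d.NG q z) ^ 2 := by positivity
  have h1 : 4 * en (gx d q z) ^ 2 / (4 * q.rT * d.NG q z) ^ 2 ≤ 1 := by
    rw [div_le_one h0]
    have := pow_le_pow_left₀ (en_nn _) hg 2
    nlinarith
  linarith

theorem ty_le0 (hT : 0 < q.rT) (hN : 0 < d.NG q z) (hg : en (gy d q z) ≤ 2 * q.rT * d.NG q z) :
    d.ty q (4 * q.rT) z ≤ 0 := by
  unfold Pk.ty
  rw [sq_gy]
  have h0 : 0 < (4 * q.rT * d.NG q z) ^ 2 := by positivity
  have h1 : 4 * en (gy d q z) ^ 2 / (4 * q.rT * d.NG q z) ^ 2 ≤ 1 := by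
    rw [div_le_one h0]
    have := pow_le_pow_left₀ (en_nn _) hg 2
    nlinarith
  linarith

theorem tx_ge4 (hT : 0 < q.rT) (hN : 0 < d.NG q z)
    (hg : 4 * q.rT * d.NG q z ≤ en (gx d q z)) : 1 ≤ d.tx q (4 * q.rT) z := by
  unfold Pk.tx
  rw [sq_gx]
  have h0 : 0 < (4 * q.rT * d.NG q z) ^ 2 := by positivity
  have h1 : 4 ≤ 4 * en (gx d q z) ^ 2 / (4 * q.rT * d.NG q z) ^ 2 := by
    rw [le_div_iff₀ h0]
    have := pow_le_pow_left₀ (by positivity) hg 2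
    linarith
  linarith

/-! ## Zone A -/

theorem path_A {k : Zo} (hk : k = .A1 ∨ k = .A2) {i : Cut} (hi : i ∈ path k) :
    i = .inf ∨ i = .rs ∨ i = .r ∨ i = .far ∨ i = .rp ∨ i = .T1 ∨ i = .T2 ∨ i = .P1 ∨
      i = .P2 := by
  rcases hk with rfl | rfl <;> cases i <;> revert hi <;> decide

/-- The constant in zone A. -/
def Ca (n : ℕ) (q : Cst) : ℝ :=
  10 * cSt + |2 / (3 * q.c₀ ^ 2) * Cr n q| + |Cd1 n q| + |Cd2 n q| +
    |CF n 2 q| * (1 + 1 / q.rT ^ 2) + |CF n 2 q| * (1 + 1 / (4 * q.rT) ^ 2)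

theorem Ca_nn : 0 ≤ Ca n q := by
  have := cSt_one
  unfold Ca
  positivity

theorem us_off (hq : GD n q) (h : PkOk q d) (hL : LitSm q d) {k : Zo} (hk : OffN k)
    (ha : d.ch q k z ≠ 0) : z ∈ (US q : Set (VV n)) := by
  have h3 := sd_nf ha (by
    rcases hk with rfl | rfl | rfl | rfl | rfl | rfl <;> (unfold Off; decide)) (by
    rcases hk with rfl | rfl | rfl | rfl | rfl | rfl <;> decide) hL.cp
  have h4 := abs_le.1 (dist_le hq h z)
  have hp := p₁_big hq.rad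
  have e1 : r2 (gi d.s₁) z = d.r2 z := rfl
  rw [e1] at h4
  show qq z < (3 * q.p₁) ^ 2
  nlinarith [h4.1]

theorem d1_tau (hq : PC n q) (h : PkOk q d) (hw : DWr q d z) (hu1 : d.u q z ≤ d.uta q)
    (us : z ∈ (US q : Set (VV n))) (ht : d.tinf q z ≤ 0) {v : VV n} (hv : ‖v‖ ≤ 1)
    (hu : |fderiv ℝ (d.u q) z v| ≤ 2) {i : Cut}
    (hi : i = .inf ∨ i = .rs ∨ i = .r ∨ i = .far ∨ i = .rp ∨ i = .T1 ∨ i = .T2 ∨ i = .P1 ∨
      i = .P2) (h0 : 0 < d.cv q i z) : |fderiv ℝ (d.cv q i) z v| ≤ Ca n q := by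
  have hD := hq.db d h z hw
  have s1 := sq_p hq.gd.rad
  have rT := hq.gd.rT0
  have cs := cSt_one
  have hL := hq.nr.sm d h
  have c1 := abs_nonneg (2 / (3 * q.c₀ ^ 2) * Cr n q)
  have c3 := abs_nonneg (Cd1 n q)
  have c4 := abs_nonneg (Cd2 n q)
  have c2 : 0 ≤ |CF n 2 q| * (1 + 1 / q.rT ^ 2) := by positivity
  have c5 : 0 ≤ |CF n 2 q| * (1 + 1 / (4 * q.rT) ^ 2) := by positivity
  have c6 := Cr_nn (n := n) hq.gd.rad
  have hc0 := hq.gt.c0
  have dρ : DifferentiableAt ℝ (rq (gi d.s₁)) z := (hL.rq.differentiable (by simp)) z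
  have hs : ContDiff ℝ ∞ (r2 (gi d.s₁) : VV n → ℝ) := contDiff_const.mul hL.rq
  have bρ : |fderiv ℝ (rq (gi d.s₁)) z v| ≤ Cr n q := by
    have k3 : D1 2 (Cr n q) (r2 (gi d.s₁) : VV n → ℝ) z := by
      have hp := Cst.p₁_ge hq.gd.rad
      have hR : 1 ≤ q.R := hq.gd.inf.R1
      have h2 := H222.ck_gi (k := 2) h hR hq.gd.ε0.le (by norm_num) hq.gd.ε1 hq.gd.εn
      have ho : IsOpen (US q : Set (VV n)) := isOpen_lt H222.continuous_qq continuous_const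
      have h3 : H222.Bk 2 (US q) (H222.c1 n 2 (3 * q.p₁) * (H222.cG n 2 * q.ε))
          (fun z : VV n => r2 (gi d.s₁) z - qq z) :=
        H222.bk_r2_sub (k := 2) (r0 := 3 * q.p₁) ho (by linarith) (fun z hz => le_of_lt hz)
          (O := univ) (fun _ _ => mem_univ _) h2
      have k1 : D1 2 (H222.c1 n 2 (3 * q.p₁) * (H222.cG n 2 * q.ε))
          (fun z : VV n => r2 (gi d.s₁) z - qq z) z := fun j _ hj => h3.b j hj z us
      have k2 : D1 2 (Bq n 2 q) (qq (n := n)) z := d1_qq (by linarith) (le_of_lt us)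
      have k3 := D1.add (hs.sub qq_sm) qq_sm k1 k2
      have e : (fun y : VV n => r2 (gi d.s₁) y - qq y + qq y) = r2 (gi d.s₁) := by
        funext y
        ring
      rw [e] at k3
      have c1 := H222.c1_nonneg (n := n) (k := 2) (r0 := 3 * q.p₁) (by linarith)
      have c2 := H222.cG_nonneg n 2
      refine k3.le ?_
      unfold Cr
      have h5 : H222.cG n 2 * q.ε ≤ H222.cG n 2 := mul_le_of_le_one_right c2 hq.gd.ε1
      have := mul_le_mul_of_nonneg_left h5 c1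
      linarith
    have k4 := k3.dir (by norm_num) v
    have e : fderiv ℝ (r2 (gi d.s₁)) z v = 2 * fderiv ℝ (rq (gi d.s₁)) z v := by
      have : HasFDerivAt (r2 (gi d.s₁)) ((2 : ℝ) • fderiv ℝ (rq (gi d.s₁)) z) z :=
        dρ.hasFDerivAt.const_mul 2
      rw [this.fderiv]
      simp
    rw [e, abs_mul, abs_two] at k4
    have k5 : Cr n q * ‖v‖ ≤ Cr n q := mul_le_of_le_one_right c6 hv
    have := abs_nonneg (fderiv ℝ (rq (gi d.s₁)) z v)
    linarith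
  have tX : ∀ {f : VV n → ℝ} {B : ℝ}, D0 2 B f z → |fderiv ℝ f z v| ≤ B := fun hf =>
    (hf.d1.dir (by norm_num) v).trans (mul_le_of_le_one_right hf.nn hv)
  rcases hi with rfl | rfl | rfl | rfl | rfl | rfl | rfl | rfl | rfl
  · exact absurd h0 (not_lt.2 ht)
  · have hV := hq.nr.j1_VS h hu1
    have e : d.cv q .rs = fun y => d.VS q (d.u q y) := by
      funext y
      show (d.VS q (d.u q y) - 0) / 1 = _
      rw [sub_zero, div_one]
    have dV : DifferentiableAt ℝ (d.VS q) (d.u q z) := hV.sm.differentiableAt (by norm_num)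
    have h1 : HasFDerivAt (fun y => d.VS q (d.u q y))
        (deriv (d.VS q) (d.u q z) • fderiv ℝ (d.u q) z) z :=
      dV.hasDerivAt.comp_hasFDerivAt z ((hL.u.differentiable (by simp)) z).hasFDerivAt
    rw [e, h1.fderiv]
    have e2 : (deriv (d.VS q) (d.u q z) • fderiv ℝ (d.u q) z) v =
        deriv (d.VS q) (d.u q z) * fderiv ℝ (d.u q) z v := rfl
    rw [e2, abs_mul]
    have h2 := mul_le_mul hV.e1 hu (abs_nonneg _) (by positivity)
    refine h2.trans ?_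
    unfold Ca
    linarith
  · have e : d.cv q .r = H932.EP.tauR q.c₀ (rq (gi d.s₁)) := rfl
    rw [e, fd_tauR q.c₀ dρ v, abs_mul, abs_of_pos (by positivity)]
    have h2 : 2 / (3 * q.c₀ ^ 2) * |fderiv ℝ (rq (gi d.s₁)) z v| ≤
        2 / (3 * q.c₀ ^ 2) * Cr n q := mul_le_mul_of_nonneg_left bρ (by positivity)
    have h3 := le_abs_self (2 / (3 * q.c₀ ^ 2) * Cr n q)
    unfold Ca
    linarith
  · have e : d.cv q .far = tauD (3 / 2 * q.p₁) (2 * q.p₁) (rq (gi d.s₁)) := rfl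
    rw [e, fd_tauD _ _ dρ v, abs_mul, abs_of_pos (by
      have := s1.2
      positivity)]
    have h2 : 2 / ((2 * q.p₁) ^ 2 - (3 / 2 * q.p₁) ^ 2) * |fderiv ℝ (rq (gi d.s₁)) z v| ≤
        2 / ((2 * q.p₁) ^ 2 - (3 / 2 * q.p₁) ^ 2) * Cr n q :=
      mul_le_mul_of_nonneg_left bρ (by
        have := s1.2
        positivity)
    have h3 := le_abs_self (Cd2 n q)
    have e2 : 2 / ((2 * q.p₁) ^ 2 - (3 / 2 * q.p₁) ^ 2) * Cr n q = Cd2 n q := rfl
    unfold Ca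
    linarith
  · have e : d.cv q .rp = tauD q.p₁ q.p₂ (rq (gi d.s₁)) := rfl
    rw [e, fd_tauD _ _ dρ v, abs_mul, abs_of_pos (by
      have := s1.1
      positivity)]
    have h2 : 2 / (q.p₂ ^ 2 - q.p₁ ^ 2) * |fderiv ℝ (rq (gi d.s₁)) z v| ≤
        2 / (q.p₂ ^ 2 - q.p₁ ^ 2) * Cr n q :=
      mul_le_mul_of_nonneg_left bρ (by
        have := s1.1
        positivity)
    have h3 := le_abs_self (Cd1 n q)
    have e2 : 2 / (q.p₂ ^ 2 - q.p₁ ^ 2) * Cr n q = Cd1 n q := rfl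
    unfold Ca
    linarith
  · have h2 := tX (hD.tx q.rT rT)
    have h3 := mul_le_mul_of_nonneg_right (le_abs_self (CF n 2 q))
      (by positivity : 0 ≤ 1 + 1 / q.rT ^ 2)
    refine h2.trans ?_
    unfold Ca
    linarith
  · have h2 := tX (hD.ty q.rT rT)
    have h3 := mul_le_mul_of_nonneg_right (le_abs_self (CF n 2 q))
      (by positivity : 0 ≤ 1 + 1 / q.rT ^ 2)
    refine h2.trans ?_
    unfold Ca
    linarith
  · have h2 := tX (hD.tx (4 * q.rT) (by positivity))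
    have h3 := mul_le_mul_of_nonneg_right (le_abs_self (CF n 2 q))
      (by positivity : 0 ≤ 1 + 1 / (4 * q.rT) ^ 2)
    refine h2.trans ?_
    unfold Ca
    linarith
  · have h2 := tX (hD.ty (4 * q.rT) (by positivity))
    have h3 := mul_le_mul_of_nonneg_right (le_abs_self (CF n 2 q))
      (by positivity : 0 ≤ 1 + 1 / (4 * q.rT) ^ 2)
    refine h2.trans ?_
    unfold Ca
    linarith

/-- **The first derivatives of the cut-offs of zone A** (from `|D u| ≤ 2`). -/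
theorem chA (hn : 1 ≤ n) : ∃ B : Cst → ℝ, NB_c' B ∧ (∀ q, 0 ≤ B q) ∧ EvC fun q =>
    ∀ d : Pk n, PkOk q d → ∀ z, d.tinf q z ≤ 0 → ∀ k : Zo, (k = .A1 ∨ k = .A2) →
      d.ch q k z ≠ 0 → ∀ v : VV n, ‖v‖ ≤ 1 → |fderiv ℝ (d.u q) z v| ≤ 2 →
        |fderiv ℝ (d.ch q k) z v| ≤ B q := by
  refine ⟨fun q => bF (Ca n q), fun _ => rfl, fun q => bF_nn Ca_nn, (evPC hn).mono ?_⟩
  intro q hq d h z ht k hk ha v hv hu
  have hL := hq.nr.sm d h
  have hoff : OffN k := by rcases hk with rfl | rfl <;> simp [OffN]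
  have h1 := off_reg hq.gt h hL hoff ha
  have h2 := abs_le.1 (u_close h z)
  exact d1_ch hL Ca_nn fun i hi h0 _ => d1_tau hq h h1.1 (by linarith [h1.2, h2.2])
    (us_off hq.gd h hL hoff ha) ht hv hu (path_A hk hi) h0

/-- **The cut-offs of the passes where the tube is alive.** -/
theorem chP0 (hn : 1 ≤ n) : ∃ B : Cst → ℝ, NB_rT B ∧ (∀ q, 0 ≤ B q) ∧ EvC fun q =>
    ∀ d : Pk n, PkOk q d → ∀ z,
      (d.ch q .T1 z ≠ 0 → d.ch q .P1 z ≠ 0 → JX (d.ch q .P1) (B q) (B q) z) ∧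
      (d.ch q .T2 z ≠ 0 → d.ch q .P2 z ≠ 0 → JX (d.ch q .P2) (B q) (B q) z) := by
  refine ⟨fun q => bF |Cd1 n q|, fun _ => rfl, fun q => bF_nn (abs_nonneg _),
    (evPC hn).mono ?_⟩
  intro q hq d h z
  have hL := hq.nr.sm d h
  have hrT := hq.gd.rT0
  have hNG := NG_pos hq.gt.gc h z
  constructor
  · intro hT hP
    have hp := pa_of hq.gd hq.gt h hL (k := .P1) (by tauto) hP
    obtain ⟨a1, -, -, a4⟩ := alive_T1 hq.gt h hL hT
    refine jx_ch hL (abs_nonneg _) fun i hi h0 h1 => jx_P0 hq h hp (a1.tinf hq.gt h).le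
      (a1.VS hq.gt h) (a1.far hq.gt h) (k := .P1) (Or.inl ⟨rfl, ?_⟩) hi h0 h1
    exact tx_le0 hrT hNG (by nlinarith [mul_pos hrT hNG])
  · intro hT hP
    have hp := pa_of hq.gd hq.gt h hL (k := .P2) (by tauto) hP
    obtain ⟨a1, -, -, a4⟩ := alive_T2 hq.gt h hL hT
    have a5 : en (gy d q z) ≤ 2 * q.rT * d.NG q z := by nlinarith [mul_pos hrT hNG]
    refine jx_ch hL (abs_nonneg _) fun i hi h0 h1 => jx_P0 hq h hp (a1.tinf hq.gt h).le
      (a1.VS hq.gt h) (a1.far hq.gt h) (k := .P2) (Or.inr ⟨rfl, ?_, ?_⟩) hi h0 h1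
    · have h3 := oth_y hq.gt.gc h a1.no (a1.r0 hq.gt) (a1.r1 hq.gt) (t := 2 * q.rT)
        (by linarith [hq.gd.rT1]) a5
      refine tx_ge4 hrT hNG (le_trans ?_ h3)
      refine mul_le_mul_of_nonneg_right ?_ hNG.le
      linarith [hq.gd.rT1]
    · exact ty_le0 hrT hNG a5

end Vale.Agent.P088.R2.H710.DC
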