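import Vale.Agent.P088.R2.H710.EP.GP
import Vale.Agent.P088.R2.H404.INF.Alv

/-!
# P088, stage 3, EST': the geometry of the tubes and of the passes

`GC q`: the conditions on the constants, `evG : EvC GC`. `Tb`: what follows from `|W0_x| ≤ t NG`
(`t ≤ 1/20`), `0 < |x - y| ≤ 2 p₁`.
-/

open Set Filter
open scoped ContDiff Topology

noncomputable section

namespace Vale.Agent.P088.R2.H710.GP

open Vale.Agent.P088.LR Vale.Agent.P088.HY Vale.Agent.P088.R2.H31.EP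
open Vale.Agent.P088.R2.H475
open Vale.Agent.P088.R2.H404.INF

variable {n : ℕ}

/-- The conditions on the constants. -/
structure GC (q : Cst) : Prop where
  inf : InfC q
  rad : H509.Rad.Ok q.e₁ rp
  rT0 : 0 < q.rT
  rT1 : q.rT ≤ 1 / 400
  rT2 : q.rT ≤ q.e₁ / 200
  rT3 : q.rT * q.p₁ ≤ 1 / 1000
  σ1 : 3 * q.σ ≤ q.rT
  M1 : 1 ≤ q.M₀
  M : ∀ r, 0 < r → r ≤ 2 * q.p₁ → 2 * (prL q.e₁ r * prS q.e₁ (r ^ 2)) ≤ q.M₀
  nm : ∀ r, 0 < r → r ≤ 2 * q.p₁ → 8 * (prL q.e₁ r * prS q.e₁ (r ^ 2)) ≤ q.nm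
  R : 2 * q.p₁ ≤ q.R

theorem LS_bdd (e₁ : ℝ) (hr : H509.Rad.Ok e₁ rp) (a : ℝ) :
    ∃ C : ℝ, ∀ r, 0 < r → r ≤ a → prL e₁ r * prS e₁ (r ^ 2) ≤ C := by
  have hc : ContinuousOn (fun r : ℝ => 2 * r * H606.EP.prS₁ e₁ (r ^ 2)) (Icc 0 a) := by
    have h1 : Continuous (H606.EP.prS₁ e₁) := by
      have : ContDiff ℝ ∞ (H606.EP.prS₁ e₁) := by
        have h2 : H606.EP.prS₁ e₁ = deriv (prS e₁) :=
          funext fun s => ((H606.EP.prS_d1 hr.e0 s).deriv).symm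
        rw [h2]
        exact (contDiff_infty_iff_deriv.1 (H606.EP.prS_sm hr.e0)).2
      exact this.continuous
    fun_prop
  obtain ⟨C, hC⟩ := isCompact_Icc.exists_bound_of_continuousOn hc
  refine ⟨C, fun r h0 h1 => ?_⟩
  have h2 := hC r ⟨h0.le, h1⟩
  rw [Real.norm_eq_abs] at h2
  have h3 : 2 * r * H606.EP.prS₁ e₁ (r ^ 2) = prL e₁ r * prS e₁ (r ^ 2) := hr.pp.Ph1_L h0
  rw [h3] at h2
  exact (le_abs_self _).trans h2

theorem evG : EvC GC := by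
  have c1 : EvC fun q => q.rT ≤ 1 / 400 :=
    EvC.at_rT (fun _ t => t ≤ 1 / 400) fun _ => sml_le (by norm_num)
  have c2 : EvC fun q => 0 < q.e₁ → q.rT ≤ q.e₁ / 200 :=
    EvC.at_rT (fun q t => 0 < q.e₁ → t ≤ q.e₁ / 200) fun q => by
      by_cases h : 0 < q.e₁
      · exact (sml_le (by positivity)).mono fun _ h1 _ => h1
      · exact Eventually.of_forall fun _ h1 => absurd h1 h
  have c3 : EvC fun q => 0 < q.p₁ → q.rT * q.p₁ ≤ 1 / 1000 :=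
    EvC.at_rT (fun q t => 0 < q.p₁ → t * q.p₁ ≤ 1 / 1000) fun q => by
      by_cases h : 0 < q.p₁
      · refine (sml_le (a := 1 / 1000 / q.p₁) (by positivity)).mono fun t h1 _ => ?_
        rwa [le_div_iff₀ h] at h1
      · exact Eventually.of_forall fun _ h1 => absurd h1 h
  have c4 : EvC fun q => 0 < q.rT → 3 * q.σ ≤ q.rT :=
    EvC.at_σ (fun q t => 0 < q.rT → 3 * t ≤ q.rT) fun q => by
      by_cases h : 0 < q.rT
      · exact (sml_le (a := q.rT / 3) (by positivity)).mono fun t h1 _ => by linarith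
      · exact Eventually.of_forall fun _ h1 => absurd h1 h
  have c5 : EvC fun q => H509.Rad.Ok q.e₁ rp → ∀ r, 0 < r → r ≤ 2 * q.p₁ →
      2 * (prL q.e₁ r * prS q.e₁ (r ^ 2)) ≤ q.M₀ :=
    EvC.at_M₀ (fun q t => H509.Rad.Ok q.e₁ rp → ∀ r, 0 < r → r ≤ 2 * q.p₁ →
      2 * (prL q.e₁ r * prS q.e₁ (r ^ 2)) ≤ t) fun q => by
      by_cases h : H509.Rad.Ok q.e₁ rp
      · obtain ⟨C, hC⟩ := LS_bdd q.e₁ h (2 * q.p₁)
        exact ev_top (2 * C) fun t ht _ r h0 h1 => by linarith [hC r h0 h1]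
      · exact Eventually.of_forall fun _ h1 => absurd h1 h
  have c6 : EvC fun q => H509.Rad.Ok q.e₁ rp → ∀ r, 0 < r → r ≤ 2 * q.p₁ →
      8 * (prL q.e₁ r * prS q.e₁ (r ^ 2)) ≤ q.nm :=
    EvC.at_nm (fun q t => H509.Rad.Ok q.e₁ rp → ∀ r, 0 < r → r ≤ 2 * q.p₁ →
      8 * (prL q.e₁ r * prS q.e₁ (r ^ 2)) ≤ t) fun q => by
      by_cases h : H509.Rad.Ok q.e₁ rp
      · obtain ⟨C, hC⟩ := LS_bdd q.e₁ h (2 * q.p₁)
        exact ev_top (8 * C) fun t ht _ r h0 h1 => by linarith [hC r h0 h1]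
      · exact Eventually.of_forall fun _ h1 => absurd h1 h
  have c7 : EvC fun q => 2 * q.p₁ ≤ q.R :=
    EvC.at_R (fun q t => 2 * q.p₁ ≤ t) fun q => ev_top (2 * q.p₁) fun t ht => ht
  refine (((evInf.and EvC.rad).and (EvC.pos.and c1)).and ((c2.and c3).and
    ((c4.and c5).and (c6.and c7)))).mono ?_
  rintro q ⟨⟨⟨a1, a2⟩, ⟨⟨-, e0, -, -, -, -, -, t0, -⟩, -, m1, -⟩, b1⟩, ⟨b2, b3⟩, ⟨b4, b5⟩, b6, b7⟩
  have hp := Cst.p₁_ge a2
  exact ⟨a1, a2, t0, b1, b2 e0, b3 (by linarith), b4 t0, m1, b5 a2, b6 a2, b7⟩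

variable {q : Cst} {d : Pk n} {z : VV n} {t : ℝ}

/-- The data of the near tree at a point. -/
abbrev NO (q : Cst) (d : Pk n) (z : VV n) : Prop :=
  NearOk q.κ₁ q.σ q.R (d.l₀ q) (H475.gg n q.σ) d.l z

theorem gl_sq (l : V n → ℝ) (x : V n) : en (gl l x) ^ 2 = ∑ i, pd i l x ^ 2 := en_sq _

theorem gl_near (hq : InfC q) (h : PkOk q d) {x : V n} (h1 : H475.gg n q.σ (q.R⁻¹ • x) ≤ 12 / 5)
    (h2 : 2 / 25 ≤ √(HY.sq (wv n q.σ (q.R⁻¹ • x)))) :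
    24 / 25 ≤ en (gl d.l x) ∧ en (gl d.l x) ≤ 1 + 5 * q.σ := by
  obtain ⟨a1, a2⟩ := grad_near hq h (by linarith) h2
  rw [← gl_sq] at a1 a2
  have h0 := hq.σ0
  refine ⟨le_of_sq_le_sq a1 (en_nn _), ?_⟩
  refine abs_le_of_sq_le_sq' (by nlinarith) (by linarith) |>.2

/-- Where the level is not deep: `|∇l|² = 1 + 2 σ (l - l₀) / R`, `∇l = w`. -/
theorem gl_lit (hq : InfC q) (h : PkOk q d) {x : V n} (h1 : -q.R ≤ d.l x - d.l₀ q) :
    gl d.l x = wR n q.σ q.R x ∧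
      HY.sq (gl d.l x) = 1 + 2 * q.σ * ((d.l x - d.l₀ q) / q.R) := by
  have hR := hq.R0
  have h2 : -1 ≤ H475.gg n q.σ (q.R⁻¹ • x) := by
    rw [(lvG hq h).gl, le_div_iff₀ hR]
    linarith
  have h3 := th1_le_of_gg hq.σ0 hq.σ1 (show -(229 / 100) ≤ H475.gg n q.σ (q.R⁻¹ • x) by linarith)
  have e1 : gl d.l x = wR n q.σ q.R x := by
    funext i
    show pd i d.l x = _
    rw [h.lev.lit, pd_levG hq.σ0 hq.σ1 hR]
    have : pp q.σ (HY.sq (wR n q.σ q.R x)) = 1 := pp_one hq.σ0 hq.σ1 h3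
    rw [this, one_mul]
  refine ⟨e1, ?_⟩
  have h4 := gg_lit hq.σ0 hq.σ1 h3
  rw [(lvG hq h).gl] at h4
  have h0 := hq.σ0
  rw [e1, h4]
  unfold wR
  field_simp
  ring

/-- The difference of the gradients. -/
theorem gl_sub (hq : InfC q) (h : PkOk q d) {x y : V n} (h1 : -q.R ≤ d.l x - d.l₀ q)
    (h2 : -q.R ≤ d.l y - d.l₀ q) :
    en (gl d.l x - gl d.l y) = q.σ / q.R * en (x - y) := by
  rw [(gl_lit hq h h1).1, (gl_lit hq h h2).1]
  have e : wR n q.σ q.R x - wR n q.σ q.R y = (q.σ / q.R) • (x - y) := by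
    unfold wR wv
    funext i
    simp
    field_simp
    ring
  rw [e, en_sm, abs_of_nonneg (div_nonneg hq.σ0.le hq.R0.le)]

/-- Two points which are not deep. -/
structure ND (q : Cst) (d : Pk n) (z : VV n) : Prop where
  u0 : 0 ≤ d.u0 z
  l1 : -q.R ≤ d.l z.1 - d.l₀ q
  l2 : -q.R ≤ d.l z.2 - d.l₀ q
  /-- `|∇l| = 1 + O(σ)` -/
  g1 : 1 - q.σ ≤ en (gl d.l z.1)
  g1' : en (gl d.l z.1) ≤ 1 + 3 * q.σ
  g2 : 1 - q.σ ≤ en (gl d.l z.2)
  g2' : en (gl d.l z.2) ≤ 1 + 3 * q.σ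

theorem nd_of (hq : InfC q) (h : PkOk q d) (hn : NO q d z) (hu : 0 ≤ d.u0 z) : ND q d z := by
  have hR := hq.R0
  have hσ := hq.σ0
  have e1 := (lvG hq h).gl z.1
  have e2 := (lvG hq h).gl z.2
  have hd := abs_le.1 hn.dg
  rw [e1, e2, ← sub_div] at hd
  have k1 := hd.1
  have k2 := hd.2
  rw [le_div_iff₀ hR] at k1
  rw [div_le_iff₀ hR] at k2
  have hl0 := l₀_le hq h
  have hη := hq.η1
  have hκ := hq.κ1
  have hu' : 0 ≤ d.l z.1 + d.l z.2 := hu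
  have kR : q.κ₁ * q.R ≤ 1 / 50 * q.R := mul_le_mul_of_nonneg_right hκ hR.le
  have ηR : q.η * q.R ≤ 1 / 200 * q.R := mul_le_mul_of_nonneg_right hη hR.le
  have a1 : -(1 / 40) * q.R ≤ d.l z.1 - d.l₀ q := by nlinarith
  have a2 : -(1 / 40) * q.R ≤ d.l z.2 - d.l₀ q := by nlinarith
  have b1 : -q.R ≤ d.l z.1 - d.l₀ q := by nlinarith
  have b2 : -q.R ≤ d.l z.2 - d.l₀ q := by nlinarith
  have key : ∀ x : V n, -(1 / 40) * q.R ≤ d.l x - d.l₀ q → H475.gg n q.σ (q.R⁻¹ • x) ≤ 12 / 5 →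
      1 - q.σ ≤ en (gl d.l x) ∧ en (gl d.l x) ≤ 1 + 3 * q.σ := by
    intro x hx hg
    have e3 := (gl_lit hq h (x := x) (by nlinarith)).2
    rw [← en_sq] at e3
    have h1 : -(1 / 40) ≤ (d.l x - d.l₀ q) / q.R := by
      rw [le_div_iff₀ hR]; linarith
    have h2 : (d.l x - d.l₀ q) / q.R ≤ 12 / 5 := by rwa [(lvG hq h).gl] at hg
    have hσ1 := hq.σ1
    constructor
    · refine le_of_sq_le_sq ?_ (en_nn _)
      rw [e3]
      nlinarith
    · refine (abs_le_of_sq_le_sq' ?_ (by linarith)).2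
      rw [e3]
      nlinarith
  exact ⟨hu, b1, b2, (key _ a1 hn.g1).1, (key _ a1 hn.g1).2, (key _ a2 hn.g2).1,
    (key _ a2 hn.g2).2⟩

theorem en_cq (hr : H509.Rad.Ok q.e₁ rp) (h0 : 0 < rr z) :
    en (cq d q z • (z.1 - z.2)) = prL q.e₁ (rr z) * d.G0 q z := by
  rw [en_sm, abs_of_nonneg (cq_pos hr z)]
  exact cq_rr hr h0

/-- Facts where one gradient of the flat weight is short. -/
structure Tb (q : Cst) (d : Pk n) (z : VV n) (t : ℝ) : Prop where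
  nd : ND q d z
  /-- `L G₀ ~ NG` -/
  lo : (1 - t - q.σ) * d.NG q z ≤ prL q.e₁ (rr z) * d.G0 q z
  up : prL q.e₁ (rr z) * d.G0 q z ≤ (1 + t + 3 * q.σ) * d.NG q z

theorem NG_pos (hq : GC q) (h : PkOk q d) (z : VV n) : 0 < d.NG q z :=
  lt_of_lt_of_le (by linarith [hq.M1]) (h.NG_ge hq.rad z)

/-- The level is positive where `L G₀ ≥ (9/10) NG`. -/
theorem u0_pos (hq : GC q) (h : PkOk q d) (h0 : 0 < rr z) (h1 : rr z ≤ 2 * q.p₁)
    (h2 : 9 / 10 * d.NG q z ≤ prL q.e₁ (rr z) * d.G0 q z) : 0 ≤ d.u0 z := by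
  have hM := hq.M _ h0 h1
  have hN := h.NG_ge hq.rad z
  have hM1 := hq.M1
  unfold Pk.G0 at h2
  rw [← rr_sq] at h2
  by_contra hc
  have he : Real.exp (d.u0 z) ≤ 1 := Real.exp_le_one_iff.2 (not_le.1 hc).le
  have hS : 0 < prS q.e₁ (rr z ^ 2) := hq.rad.pp.S_pos (by positivity)
  have hL : 0 < prL q.e₁ (rr z) := hq.rad.Lpos _
  have h3 : prL q.e₁ (rr z) * (Real.exp (d.u0 z) * prS q.e₁ (rr z ^ 2)) ≤
      prL q.e₁ (rr z) * (1 * prS q.e₁ (rr z ^ 2)) :=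
    mul_le_mul_of_nonneg_left (mul_le_mul_of_nonneg_right he hS.le) hL.le
  nlinarith

theorem tb_x (hq : GC q) (h : PkOk q d) (hn : NO q d z) (h0 : 0 < rr z) (h1 : rr z ≤ 2 * q.p₁)
    (ht : t ≤ 1 / 20) (hx : en (gx d q z) ≤ t * d.NG q z) : Tb q d z t := by
  have hNG := NG_pos hq h z
  have hg := gl_near hq.inf h hn.g1 hn.w1
  rw [gx_eq h hq.rad.e0] at hx
  have k1 := (en_lo (gl d.l z.1) (cq d q z • (z.1 - z.2)) hNG.le).trans hx
  have k2 := (en_lo' (gl d.l z.1) (cq d q z • (z.1 - z.2)) hNG.le).trans hx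
  rw [en_cq hq.rad h0] at k1 k2
  have k3 := mul_le_mul_of_nonneg_left hg.1 hNG.le
  have hu : 0 ≤ d.u0 z := u0_pos hq h h0 h1 (by nlinarith)
  have hd := nd_of hq.inf h hn hu
  have k4 := mul_le_mul_of_nonneg_left hd.g1 hNG.le
  have k5 := mul_le_mul_of_nonneg_left hd.g1' hNG.le
  exact ⟨hd, by nlinarith, by nlinarith⟩

theorem tb_y (hq : GC q) (h : PkOk q d) (hn : NO q d z) (h0 : 0 < rr z) (h1 : rr z ≤ 2 * q.p₁)
    (ht : t ≤ 1 / 20) (hx : en (gy d q z) ≤ t * d.NG q z) : Tb q d z t := by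
  have hNG := NG_pos hq h z
  have hg := gl_near hq.inf h hn.g2 hn.w2
  have e1 : gy d q z = d.NG q z • gl d.l z.2 + (-(cq d q z)) • (z.1 - z.2) := by
    rw [gy_eq h hq.rad.e0, neg_smul, sub_eq_add_neg]
  have e2 : en ((-(cq d q z)) • (z.1 - z.2)) = prL q.e₁ (rr z) * d.G0 q z := by
    rw [← en_cq hq.rad h0, en_sm, en_sm, abs_neg]
  rw [e1] at hx
  have k1 := (en_lo (gl d.l z.2) ((-(cq d q z)) • (z.1 - z.2)) hNG.le).trans hx
  have k2 := (en_lo' (gl d.l z.2) ((-(cq d q z)) • (z.1 - z.2)) hNG.le).trans hx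
  rw [e2] at k1 k2
  have k3 := mul_le_mul_of_nonneg_left hg.1 hNG.le
  have hu : 0 ≤ d.u0 z := u0_pos hq h h0 h1 (by nlinarith)
  have hd := nd_of hq.inf h hn hu
  have k4 := mul_le_mul_of_nonneg_left hd.g2 hNG.le
  have k5 := mul_le_mul_of_nonneg_left hd.g2' hNG.le
  exact ⟨hd, by nlinarith, by nlinarith⟩

/-- The sum of the two gradients of the level. -/
theorem ND.sum (hq : GC q) (h : PkOk q d) (hd : ND q d z) (h1 : rr z ≤ 2 * q.p₁) :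
    2 - 3 * q.σ ≤ en (gl d.l z.1 + gl d.l z.2) := by
  have hR := hq.inf.R0
  have hσ := hq.inf.σ0
  have e1 := gl_sub hq.inf h hd.l1 hd.l2
  have k1 : q.σ / q.R * en (z.1 - z.2) ≤ q.σ := by
    rw [div_mul_eq_mul_div, div_le_iff₀ hR]
    exact mul_le_mul_of_nonneg_left (h1.trans hq.R) hσ.le
  have k2 := en_tri' (gl d.l z.1 + gl d.l z.2) (-(gl d.l z.1 - gl d.l z.2))
  have e2 : gl d.l z.1 + gl d.l z.2 - -(gl d.l z.1 - gl d.l z.2) = (2 : ℝ) • gl d.l z.1 := by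
    rw [two_smul]; abel
  have e3 : en (-(gl d.l z.1 - gl d.l z.2)) = en (gl d.l z.1 - gl d.l z.2) := by
    rw [← neg_one_smul ℝ, en_sm]; norm_num
  rw [e2, e3, e1, en_sm, abs_of_pos (by norm_num : (0 : ℝ) < 2)] at k2
  linarith [hd.g1]

/-- **The other gradient is long.** -/
theorem oth_x (hq : GC q) (h : PkOk q d) (hn : NO q d z) (h0 : 0 < rr z) (h1 : rr z ≤ 2 * q.p₁)
    (ht : t ≤ 1 / 20) (hx : en (gx d q z) ≤ t * d.NG q z) :
    19 / 10 * d.NG q z ≤ en (gy d q z) := by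
  have hT := tb_x hq h hn h0 h1 ht hx
  have hNG := NG_pos hq h z
  have k1 := hT.nd.sum hq h h1
  have hx' := hx
  rw [gx_eq h hq.rad.e0] at hx'
  have k2 := en_oth (gl d.l z.1) (gl d.l z.2) (cq d q z • (z.1 - z.2)) hNG.le
  rw [← gy_eq h hq.rad.e0] at k2
  have k3 := mul_le_mul_of_nonneg_left k1 hNG.le
  have hσ := hq.inf.σ1
  nlinarith

theorem oth_y (hq : GC q) (h : PkOk q d) (hn : NO q d z) (h0 : 0 < rr z) (h1 : rr z ≤ 2 * q.p₁)
    (ht : t ≤ 1 / 20) (hx : en (gy d q z) ≤ t * d.NG q z) :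
    19 / 10 * d.NG q z ≤ en (gx d q z) := by
  have hT := tb_y hq h hn h0 h1 ht hx
  have hNG := NG_pos hq h z
  have k1 := hT.nd.sum hq h h1
  have hx' := hx
  have e1 : gy d q z = d.NG q z • gl d.l z.2 + (-(cq d q z)) • (z.1 - z.2) := by
    rw [gy_eq h hq.rad.e0, neg_smul, sub_eq_add_neg]
  have e2 : gx d q z = d.NG q z • gl d.l z.1 - (-(cq d q z)) • (z.1 - z.2) := by
    rw [gx_eq h hq.rad.e0, neg_smul, sub_neg_eq_add]
  rw [e1] at hx'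
  have k2 := en_oth (gl d.l z.2) (gl d.l z.1) ((-(cq d q z)) • (z.1 - z.2)) hNG.le
  rw [← e2, add_comm (gl d.l z.2)] at k2
  have k3 := mul_le_mul_of_nonneg_left k1 hNG.le
  have hσ := hq.inf.σ1
  nlinarith

/-- The gradients are bounded. -/
theorem gx_le (hq : GC q) (h : PkOk q d) (hn : NO q d z) (h0 : 0 < rr z) :
    en (gx d q z) ≤ 101 / 100 * d.NG q z + prL q.e₁ (rr z) * d.G0 q z := by
  have hNG := NG_pos hq h z
  have hg := gl_near hq.inf h hn.g1 hn.w1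
  have hσ := hq.inf.σ1
  rw [gx_eq h hq.rad.e0]
  refine (en_tri _ _).trans ?_
  rw [en_cq hq.rad h0, en_sm, abs_of_pos hNG]
  nlinarith

theorem gy_le (hq : GC q) (h : PkOk q d) (hn : NO q d z) (h0 : 0 < rr z) :
    en (gy d q z) ≤ 101 / 100 * d.NG q z + prL q.e₁ (rr z) * d.G0 q z := by
  have hNG := NG_pos hq h z
  have hg := gl_near hq.inf h hn.g2 hn.w2
  have hσ := hq.inf.σ1
  rw [gy_eq h hq.rad.e0]
  refine (en_tri' _ _).trans ?_
  rw [en_cq hq.rad h0, en_sm, abs_of_pos hNG]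
  nlinarith

namespace Tb

/-- The slope against `G₀`. -/
theorem N_lo (hT : Tb q d z t) : (prL q.e₁ (rr z) - 1) * d.G0 q z ≤
    deriv d.Φ (d.u0 z) + (t + 3 * q.σ) * d.NG q z := by
  have := hT.up
  unfold Pk.NG at this ⊢
  linarith

theorem N_up (hT : Tb q d z t) : deriv d.Φ (d.u0 z) ≤
    (prL q.e₁ (rr z) - 1) * d.G0 q z + (t + q.σ) * d.NG q z := by
  have := hT.lo
  unfold Pk.NG at this ⊢
  linarith

/-- `Φ' ≤ (nm / 4) e^u`. -/
theorem N_nm (hq : GC q) (h : PkOk q d) (hT : Tb q d z t) (h0 : 0 < rr z) (h1 : rr z ≤ 2 * q.p₁)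
    (ht : t ≤ 1 / 20) : deriv d.Φ (d.u0 z) ≤ q.nm / 4 * Real.exp (d.u0 z) := by
  have hNG := NG_pos hq h z
  have k1 := hT.lo
  have k2 := hq.nm _ h0 h1
  have hσ := hq.inf.σ1
  have k3 := PkOk.G0_nonneg (d := d) hq.rad z
  have k4 : deriv d.Φ (d.u0 z) ≤ d.NG q z := by unfold Pk.NG; linarith
  have k5 : prL q.e₁ (rr z) * d.G0 q z ≤ q.nm / 8 * Real.exp (d.u0 z) := by
    unfold Pk.G0
    rw [← rr_sq]
    nlinarith [Real.exp_pos (d.u0 z)]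
  nlinarith

end Tb

/-- In the layer `rp` (and before): `Φ' ≥ NG / (25 r)`. -/
theorem Tb.N_ge (hq : GC q) (h : PkOk q d) (hT : Tb q d z t) (h0 : 1 ≤ rr z) (h1 : rr z < q.p₂)
    (ht : t ≤ 4 * q.rT) : 1 / (25 * rr z) * d.NG q z ≤ deriv d.Φ (d.u0 z) := by
  have hNG := NG_pos hq h z
  have hr0 : 0 < rr z := by linarith
  have hp := Cst.p₂_lt hq.rad
  have hp1 := Cst.p₁_ge hq.rad
  have hb : (1 : ℝ) / 10 < H509.Rad.gr q.e₁ rp (rr z) :=
    lt_trans (by norm_num) (hq.rad.before (t := 1 / 9) h0 h1)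
  have hL : 0 < prL q.e₁ (rr z) := hq.rad.Lpos _
  have k1 : 1 / 10 * prL q.e₁ (rr z) < rr z * (prL q.e₁ (rr z) - 1) := by
    have e : H509.Rad.gr q.e₁ rp (rr z) * prL q.e₁ (rr z) =
        rr z * (prL q.e₁ (rr z) - 1) := by
      unfold H509.Rad.gr
      have e2 : H509.Rad.Lr q.e₁ rp (rr z) = prL q.e₁ (rr z) := rfl
      rw [e2]
      field_simp
    rw [← e]
    exact mul_lt_mul_of_pos_right hb hL
  have hG := PkOk.G0_nonneg (d := d) hq.rad z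
  have k2 := hT.N_lo
  have k3 := hT.lo
  have k4 := mul_le_mul_of_nonneg_right k1.le hG
  have hσ := hq.σ1
  have hσ0 := hq.inf.σ0
  have hrT := hq.rT1
  have k5 : 90 / 1000 * d.NG q z ≤ rr z * ((prL q.e₁ (rr z) - 1) * d.G0 q z) := by
    have : 90 / 100 * d.NG q z ≤ prL q.e₁ (rr z) * d.G0 q z := by nlinarith
    nlinarith
  have k6 : rr z * (t + 3 * q.σ) ≤ 1 / 100 := by
    have : rr z * (t + 3 * q.σ) ≤ 3 / 2 * q.p₁ * (5 * q.rT) :=
      mul_le_mul (by linarith) (by linarith) (by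
        by_contra hc
        have := hT.lo
        have := hT.up
        nlinarith) (by linarith)
    nlinarith [hq.rT3]
  have k7 : 80 / 1000 * d.NG q z ≤ rr z * deriv d.Φ (d.u0 z) := by
    have a1 := mul_le_mul_of_nonneg_left k2 hr0.le
    have a2 := mul_le_mul_of_nonneg_right k6 hNG.le
    nlinarith
  rw [div_mul_eq_mul_div, one_mul, div_le_iff₀ (by positivity)]
  nlinarith

/-- **No short gradient beyond `(3/2) p₁`.** -/
theorem Tb.lt_far (hq : GC q) (h : PkOk q d) (hT : Tb q d z t) (ht : t ≤ 4 * q.rT) :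
    rr z < 3 / 2 * q.p₁ := by
  by_contra hc
  have hNG := NG_pos hq h z
  have hb : prL q.e₁ (rr z) ≤ 1 - q.e₁ / 5 :=
    hq.rad.beyond (by norm_num) (by norm_num) (not_lt.1 hc)
  have hG := PkOk.G0_nonneg (d := d) hq.rad z
  have hN := h.N_pos hq.M1 (d.u0 z)
  have k1 := hT.lo
  have he := hq.rad.e0
  have h2 := hq.rT2
  have h3 := hq.σ1
  have k2 := mul_le_mul_of_nonneg_right hb hG
  have k3 : (1 - q.e₁ / 10) * d.NG q z ≤ (1 - t - q.σ) * d.NG q z :=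
    mul_le_mul_of_nonneg_right (by linarith) hNG.le
  have k4 : d.NG q z = deriv d.Φ (d.u0 z) + d.G0 q z := rfl
  have he1 := hq.rad.e1
  nlinarith

end Vale.Agent.P088.R2.H710.GP
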