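import Vale.Agent.P088.R2.H710.EP.DC
import Vale.Agent.P088.R2.H710.E.PR
import Vale.Agent.P088.R2.H808.E.PF
import Vale.Agent.P088.R2.H558.G.TopL
import Vale.Agent.P088.R2.H660.P.Rows
import Vale.Agent.P088.R2.H912.A.Cl
import Vale.Agent.P088.R2.H912.A.Sup

/-!
# P088, stage 3, EST': the payments of the costs of `A1`, `A2`, `P1`, `P2`
-/

open Set Filter
open scoped ContDiff Topology

noncomputable section

namespace Vale.Agent.P088.R2.H710.PY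

open Vale.Agent.P088.LR
open Vale.Agent.P088.HY hiding dd
open Vale.Agent.P088.R2.H31.EP
open Vale.Agent.P088.R2.H961.GW Vale.Agent.P088.R2.H960.W
open Vale.Agent.P088.R2.H551.E Vale.Agent.P088.R2.H747.SW
open Vale.Agent.P088.R2.H455.E Vale.Agent.P088.R2.H558.G
open Vale.Agent.P088.R2.H867.EP (Zo)
open Vale.Agent.P088.R2.H932.EP (JB)
open Vale.Agent.P088.R2.H710.DC
open Vale.Agent.P088.R2.H808.PF (Nu Cb Pays pay_coA pays_MA)
open Vale.Agent.P088.R2.H747.A (GG NG mA OmA OmB RowSym RowSup Wx2 Wy2 rr)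
open Vale.Agent.P088.R2.H464.Cu (bf)
open Vale.Agent.P088.R2.H660.P (RowPSup RowPSz OmP sP tP kP Wc2)

variable {n : ℕ} {q : Cst} {d : Pk n} {z : VV n} {L : Lc n}

/-- The payment where `tinf ≤ 0`. -/
def PyF (L : Lc n) (k j : Zo) : Prop := ∃ th : Cst → ℝ, SmE th ∧ ∀ e : Cst → ℝ, SmE e →
  (∀ q, e q ≤ th q) → EvC fun q => ∀ d : Pk n, PkOk q d → ∀ z, d.tinf q z ≤ 0 →
    d.ch q k z ≠ 0 → d.ch q j z ≠ 0 → ∀ a b : VV n → ℝ,
      34 * den d q (coz L e q d k) a b z ≤ den d q (Mz L q d j) a b z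

/-! ## Constants -/

theorem nbM {f : Cst → ℝ} (hf : NB_c' f) : NB_M₀ f := fun q => by
  rw [← hf q, ← hf q.b_M₀]
  rfl

theorem nbc {f : Cst → ℝ} (hf : NB_rT f) : NB_c' f := fun q => by
  rw [← hf q, ← hf q.b_c']
  rfl

theorem evM {f : Cst → ℝ} (hf : NB_M₀ f) : EvC fun q => f q ≤ q.M₀ :=
  (EvC.at_M₀ (fun q t => f q ≤ t) fun q => eventually_ge_atTop (f q)).mono fun q h => by
    rwa [hf q] at h

theorem evT {f : Cst → ℝ} (hf : NB_rT f) (h0 : ∀ q, 0 < f q) : EvC fun q => q.rT ≤ f q :=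
  (EvC.at_rT (fun q t => t ≤ f q) fun q => sml_le (h0 q)).mono fun q h => by
    rwa [hf q] at h

/-! ## Slots -/

theorem s₂_close (h : PkOk q d) (x : V n) (i j : Fin n) :
    |d.s₂ x i j - H222.dl i j| ≤ q.ε := by
  have := h.rg.cl₂ i j 0 (by norm_num) x
  rwa [norm_iteratedFDeriv_zero, pow_zero, mul_one, Real.norm_eq_abs] at this

theorem Γx (hε : n * q.ε ≤ 1 / 2) (h : PkOk q d) (f : VV n → ℝ) (z : VV n) :
    1 / 2 * ∑ i, d.sx.D i f z ^ 2 ≤ d.sx.Γ f f z ∧ d.sx.Γ f f z ≤ 2 * ∑ i, d.sx.D i f z ^ 2 := by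
  have h1 := bf_close (h.s₁_close z.1) (fun i => d.sx.D i f z)
  have e : d.sx.Γ f f z = bf (d.s₁ z.1) (fun i => d.sx.D i f z) (fun i => d.sx.D i f z) := rfl
  rw [← e] at h1
  have h2 : 0 ≤ ∑ i, d.sx.D i f z ^ 2 := Finset.sum_nonneg fun _ _ => sq_nonneg _
  have h3 := abs_le.1 h1
  have h4 := mul_le_mul_of_nonneg_right hε h2
  exact ⟨by linarith [h3.1], by linarith [h3.2]⟩

theorem Γy (hε : n * q.ε ≤ 1 / 2) (h : PkOk q d) (f : VV n → ℝ) (z : VV n) :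
    1 / 2 * ∑ i, d.sy.D i f z ^ 2 ≤ d.sy.Γ f f z ∧ d.sy.Γ f f z ≤ 2 * ∑ i, d.sy.D i f z ^ 2 := by
  have h1 := bf_close (s₂_close h z.2) (fun i => d.sy.D i f z)
  have e : d.sy.Γ f f z = bf (d.s₂ z.2) (fun i => d.sy.D i f z) (fun i => d.sy.D i f z) := rfl
  rw [← e] at h1
  have h2 : 0 ≤ ∑ i, d.sy.D i f z ^ 2 := Finset.sum_nonneg fun _ _ => sq_nonneg _
  have h3 := abs_le.1 h1
  have h4 := mul_le_mul_of_nonneg_right hε h2
  exact ⟨by linarith [h3.1], by linarith [h3.2]⟩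

theorem Dx (f : VV n → ℝ) (i : Fin n) : d.sx.D i f z = fderiv ℝ f z (ex (Sum.inl i)) :=
  one_mul _

theorem Dy (f : VV n → ℝ) (i : Fin n) : d.sy.D i f z = fderiv ℝ f z (ex (Sum.inr i)) :=
  one_mul _

theorem sum_le {f : Fin n → ℝ} {B : ℝ} (h : ∀ i, |f i| ≤ B) :
    ∑ i, f i ^ 2 ≤ n * B ^ 2 := by
  have h1 : ∑ i, f i ^ 2 ≤ ∑ _i : Fin n, B ^ 2 := Finset.sum_le_sum fun i _ => by
    rw [← sq_abs]
    exact pow_le_pow_left₀ (abs_nonneg _) (h i) 2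
  rwa [Finset.sum_const, Finset.card_univ, Fintype.card_fin, nsmul_eq_mul] at h1

theorem GG_pos (h : PkOk q d) (hr : 0 < rr d z) : 0 < GG q d z := h.sl.G_pos _ hr

theorem rr_pos (hr : 0 < d.r2 z) : 0 < rr d z := Real.sqrt_pos.2 hr

/-! ## Facts of zone A -/

/-- The conditions on the constants. -/
structure AC (n : ℕ) (q : Cst) : Prop where
  εn : n * q.ε ≤ 1 / 2
  M1 : 1 ≤ q.M₀
  rT : 0 < q.rT
  c₀ : 0 < q.c₀
  σ : 0 < q.σ
  σ1 : q.σ ≤ 1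
  R : 1 ≤ q.R
  e₁ : H509.Rad.Ok q.e₁ rp

theorem evAC (n : ℕ) : EvC (AC n) := by
  refine (((evD n).and (H509.TG.evGT n)).and EvC.pos).mono ?_
  rintro q ⟨⟨g, t⟩, p⟩
  exact ⟨g.εn, g.M1, g.rT0, t.c0, g.inf.σ0, by linarith [g.inf.σ1], g.inf.R1, g.rad⟩

/-- The facts where a leaf of zone A is alive. -/
structure AF (q : Cst) (d : Pk n) (z : VV n) : Prop where
  B : z ∈ OmB q d
  r0 : 0 < rr d z
  G0 : 0 < GG q d z
  N0 : q.M₀ ≤ NG q d z
  Fx : q.rT ^ 2 / 128 * NG q d z ^ 2 ≤ d.sx.F (d.W q) z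
  Fy : q.rT ^ 2 / 128 * NG q d z ^ 2 ≤ d.sy.F (d.W q) z

theorem af_of (hq : AC n q) (h : PkOk q d) (hz : z ∈ OmA q d) : AF q d z := by
  obtain ⟨hB, hx, hy⟩ := hz
  have hc := hq.c₀
  have hr2 : 0 < d.r2 z := lt_trans (by positivity) hB.1
  have hr := rr_pos hr2
  have hG := GG_pos h hr
  have hN : q.M₀ ≤ d.N q z := h.N_ge _
  have e1 : NG q d z = d.N q z + GG q d z := rfl
  have gx := (Γx hq.εn h (d.W q) z).1
  have gy := (Γy hq.εn h (d.W q) z).1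
  have ex1 : Wx2 q d z = ∑ i, d.sx.D i (d.W q) z ^ 2 := rfl
  have ey1 : Wy2 q d z = ∑ i, d.sy.D i (d.W q) z ^ 2 := rfl
  have fx : d.sx.F (d.W q) z = d.sx.Γ (d.W q) (d.W q) z := rfl
  have fy : d.sy.F (d.W q) z = d.sy.Γ (d.W q) (d.W q) z := rfl
  refine ⟨hB, hr, hG, by linarith, ?_, ?_⟩
  · rw [fx]
    rw [ex1] at hx
    nlinarith
  · rw [fy]
    rw [ey1] at hy
    nlinarith

theorem mA_nn {μ : Cst → ℝ} (hq : AC n q) (hμ : 0 < μ q) (hf : AF q d z) :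
    0 ≤ mA μ q d z := by
  have h1 := hf.G0
  have h2 := hf.r0
  have h3 := hf.N0
  have h4 := hq.M1
  have h5 := hq.σ
  have h6 := hq.R
  have h7 : 0 ≤ NG q d z := by linarith
  unfold mA
  positivity

/-! ## Costs of zone A -/

theorem nu_of {η Λ B X₀ : ℝ} (h0 : 0 < η) (hΛ : 1 ≤ Λ) (hB : 1 ≤ B)
    (h1 : η ≤ 1 / (100000 * (Λ * B))) (h2 : 408 * (Λ * B / η) ≤ X₀) :
    Nu 34 η Λ B 6 X₀ := by
  have hΛB : 1 ≤ Λ * B := by nlinarith
  have h3 : η * (100000 * (Λ * B)) ≤ 1 := by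
    rwa [le_div_iff₀ (by positivity)] at h1
  have h4 : 0 < Λ * B / η := by positivity
  refine ⟨by norm_num, h0, by linarith, by linarith, by norm_num, by linarith, ?_, ?_, ?_⟩
  · nlinarith
  · have e : 6 * Λ * B / η = 6 * (Λ * B / η) := by ring
    rw [e]
    linarith
  · nlinarith

/-- The core of the payments of the costs of zone A. -/
theorem payA {η Λ B B₂ X₀ μ X Y : ℝ} {m χ a b : VV n → ℝ} {M : Q8 (VV n)}
    (hε : n * q.ε ≤ 1 / 2) (h : PkOk q d) (nu : Nu 34 η Λ B₂ 6 X₀) (hm : 0 ≤ m z)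
    (hΛ : m z ≤ Λ * μ) (hB2 : n * B ^ 2 ≤ B₂)
    (hχ : ∀ i, |fderiv ℝ χ z (ex i)| ≤ B) (hX : X₀ ≤ X) (hY : X₀ ≤ Y)
    (fX : d.sx.F (d.W q) z ≤ 3 * X) (fY : d.sy.F (d.W q) z ≤ 3 * Y) (p : Pays M μ X Y z) :
    34 * den d q (coA d.sx d.sy (d.W q) m χ η) a b z ≤ den d q M a b z := by
  have c1 : ∑ i, d.sx.D i χ z ^ 2 ≤ B₂ :=
    (sum_le fun i => by rw [Dx]; exact hχ _).trans hB2
  have c2 : ∑ i, d.sy.D i χ z ^ 2 ≤ B₂ :=
    (sum_le fun i => by rw [Dy]; exact hχ _).trans hB2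
  have g1 := (Γx hε h χ z).2
  have g2 := (Γy hε h χ z).2
  have w1 := (Γx hε h (d.W q) z).1
  have w2 := (Γy hε h (d.W q) z).1
  have e1 : d.sx.F (d.W q) z = d.sx.Γ (d.W q) (d.W q) z := rfl
  have e2 : d.sy.F (d.W q) z = d.sy.Γ (d.W q) (d.W q) z := rfl
  rw [e1] at fX
  rw [e2] at fY
  exact pay_coA (σ := d.sx) (τ := d.sy) nu hm hΛ ⟨c1, by linarith, by linarith⟩
    ⟨c2, by linarith, by linarith⟩ hX hY p

/-- The value of the two gradients. -/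
def X₀ (q : Cst) : ℝ := q.rT ^ 2 / 384 * q.M₀ ^ 2

theorem x₀_le {N F : ℝ} (hq : AC n q) (hN : q.M₀ ≤ N) (hF : q.rT ^ 2 / 128 * N ^ 2 ≤ F) :
    X₀ q ≤ 1 / 3 * F := by
  have h1 := hq.M1
  have h2 : q.M₀ ^ 2 ≤ N ^ 2 := pow_le_pow_left₀ (by linarith) hN 2
  have h3 : 0 ≤ q.rT ^ 2 / 128 := by positivity
  unfold X₀
  nlinarith

/-- The large constant in the payments of the costs of zone A. -/
theorem x₀_ge {c : ℝ} (hq : AC n q) (h : 384 * c / q.rT ^ 2 ≤ q.M₀) :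
    c ≤ X₀ q := by
  have h1 := hq.M1
  have h2 := hq.rT
  rw [div_le_iff₀ (by positivity)] at h
  have h3 : q.M₀ ≤ q.M₀ ^ 2 := by nlinarith
  have h4 : q.M₀ * q.rT ^ 2 ≤ q.M₀ ^ 2 * q.rT ^ 2 := mul_le_mul_of_nonneg_right h3 (by positivity)
  unfold X₀
  linarith

/-- The facts for the costs of zone A. -/
theorem ev_cost (hn : 1 ≤ n) (hS : RowSym n) (Λ : Cst → ℝ) (hΛ : NB_c' Λ) (hΛ1 : ∀ q, 1 ≤ Λ q) :
    ∃ th : Cst → ℝ, SmE th ∧ ∀ e : Cst → ℝ, SmE e → (∀ q, e q ≤ th q) →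
      EvC fun q => AC n q ∧ ∃ B B₂ : ℝ, n * B ^ 2 ≤ B₂ ∧ Nu 34 (e q) (Λ q) B₂ 6 (X₀ q) ∧
        ∀ d : Pk n, PkOk q d → ∀ z, d.tinf q z ≤ 0 → ∀ k : Zo, (k = .A1 ∨ k = .A2) →
          d.ch q k z ≠ 0 → AF q d z ∧ ∀ i, |fderiv ℝ (d.ch q k) z (ex i)| ≤ B := by
  obtain ⟨B, hB, hB0, hBe⟩ := chA hn
  obtain ⟨C, -, -, hSy⟩ := hS (fun _ => 1) (fun _ => rfl) fun _ => one_pos
  have hb : ∀ q, 1 ≤ n * B q ^ 2 + 1 := fun q => by
    have : 0 ≤ (n : ℝ) * B q ^ 2 := by positivity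
    linarith
  have hpos : ∀ q, 0 < 100000 * (Λ q * (n * B q ^ 2 + 1)) := fun q => by
    have h1 := hΛ1 q
    have h2 := hb q
    have : 0 < Λ q := by linarith
    positivity
  refine ⟨fun q => 1 / (100000 * (Λ q * (n * B q ^ 2 + 1))), ⟨fun q => ?_, fun q => ?_⟩,
    fun e he hle => ?_⟩
  · simp only [hΛ q, hB q]
  · exact one_div_pos.2 (hpos q)
  have hM : EvC fun q => 384 * (408 * (Λ q * (n * B q ^ 2 + 1) / e q)) / q.rT ^ 2 ≤ q.M₀ := by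
    refine evM (nbM fun q => ?_)
    simp only [hΛ q, hB q, he.1 q]
    rfl
  have s1 := H912.A.rowSup n .A1 (by simp)
  have s2 := H912.A.rowSup n .A2 (by simp)
  refine ((((evAC n).and hBe).and (hM.and hSy)).and (s1.and s2)).mono ?_
  rintro q ⟨⟨⟨hq, hBq⟩, hMq, hSq⟩, t1, t2⟩
  refine ⟨hq, B q, n * B q ^ 2 + 1, by linarith, nu_of (he.2 q) (hΛ1 q) (hb q) (hle q)
    (x₀_ge hq hMq), fun d h z ht k hk ha => ?_⟩
  have hz : z ∈ OmA q d := by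
    rcases hk with rfl | rfl
    · exact (t1 d h).2 (subset_tsupport _ ha)
    · exact (t2 d h).2 (subset_tsupport _ ha)
  have hu := (hSq d h z hz.1).1
  refine ⟨af_of hq h hz, fun i => hBq d h z ht k hk ha (ex i) (norm_ex i) ?_⟩
  rcases i with i | i
  · rw [← Dx (d := d)]
    exact hu.x i
  · rw [← Dy (d := d)]
    exact hu.y i

/-- **`A1`, `A2` against `A1`, `A2`.** -/
theorem pay_AA (hn : 1 ≤ n) (hS : RowSym n) (hL : L.Ok) {k j : Zo} (hk : k = .A1 ∨ k = .A2)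
    (hj : j = .A1 ∨ j = .A2) : PyF L k j := by
  obtain ⟨th, ht, H⟩ := ev_cost hn hS (fun _ => 1) (fun _ => rfl) fun _ => le_rfl
  refine ⟨th, ht, fun e he hle => (H e he hle).mono ?_⟩
  rintro q ⟨hq, B, B₂, hB, nu, hA⟩ d h z htz hak haj a b
  obtain ⟨hf, hχ⟩ := hA d h z htz k hk hak
  have hm := mA_nn (μ := L.μA) hq (hL.μA.1 q) hf
  have ek : coz L e q d k = coA d.sx d.sy (d.W q) (mA L.μA q d) (d.ch q k) (e q) := by
    rcases hk with rfl | rfl <;> rfl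
  have ej : Mz L q d j = MA d.sx d.sy (d.W q) (mA L.μA q d) (L.kA q) := by
    rcases hj with rfl | rfl <;> rfl
  rw [ek, ej]
  have hκ : L.kA q ≤ 1 := by linarith [(hL.kA.1 q).2]
  exact payA hq.εn h nu hm (by linarith) hB hχ (x₀_le hq hf.N0 hf.Fx) (x₀_le hq hf.N0 hf.Fy)
    (by linarith) (by linarith) (pays_MA hκ)

/-! ## The passes -/

/-- The bound of the function of the costs of the passes: polynomial in the derivatives of the
cut-off. -/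
def OmOk (om : Cst → Pk n → VV n → ℝ) (k : Zo) : Prop := ∃ K : Cst → ℝ, NB_rT K ∧
  EvC fun q => ∀ d : Pk n, PkOk q d → ∀ z, 0 ≤ om q d z ∧ ∀ b : ℝ, 0 ≤ b →
    JB DC.ex (fun _ => 1) (d.ch q k) b b z → om q d z ≤ K q * (b ^ 2 + b ^ 4)

/-- The pass of the leaf. -/
def zP (b : Bool) : Zo := bif b then .P1 else .P2

theorem zP_or (b : Bool) : zP b = .P1 ∨ zP b = .P2 := by cases b <;> simp [zP]

/-- The facts where a pass is alive. -/
structure PF (q : Cst) (d : Pk n) (b : Bool) (N₁ : ℝ) (z : VV n) : Prop where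
  om : z ∈ OmP q d b
  r0 : 0 < rr d z
  r1 : 1 ≤ rr d z
  r2 : rr d z ≤ 2 * q.p₁ + 1
  N1 : N₁ ≤ GG q d z
  G0 : 0 < GG q d z
  NG : NG q d z ≤ 2 * GG q d z

theorem F_nn (hε : n * q.ε ≤ 1 / 2) (h : PkOk q d) (z : VV n) :
    0 ≤ d.sx.F (d.W q) z ∧ 0 ≤ d.sy.F (d.W q) z := by
  have h1 := (Γx hε h (d.W q) z).1
  have h2 := (Γy hε h (d.W q) z).1
  have h3 : 0 ≤ ∑ i, d.sx.D i (d.W q) z ^ 2 := Finset.sum_nonneg fun _ _ => sq_nonneg _
  have h4 : 0 ≤ ∑ i, d.sy.D i (d.W q) z ^ 2 := Finset.sum_nonneg fun _ _ => sq_nonneg _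
  have e1 : d.sx.F (d.W q) z = d.sx.Γ (d.W q) (d.W q) z := rfl
  have e2 : d.sy.F (d.W q) z = d.sy.Γ (d.W q) (d.W q) z := rfl
  rw [e1, e2]
  exact ⟨by linarith, by linarith⟩

theorem ev_pass (hU : RowPSup n) (hZ : RowPSz n) (N₁ : Cst → ℝ) (hN : NB_M₀ N₁) :
    EvC fun q => AC n q ∧ ∀ d : Pk n, PkOk q d → ∀ b : Bool, ∀ z, d.ch q (zP b) z ≠ 0 →
      PF q d b (N₁ q) z := by
  refine (((evAC n).and hU).and (hZ N₁ (fun _ => 1) hN (fun _ => rfl) fun _ => one_pos)).mono ?_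
  rintro q ⟨⟨hq, hu⟩, hκ0, hκ1, hz⟩
  refine ⟨hq, fun d h b z ha => ?_⟩
  have hm : z ∈ OmP q d b := by
    cases b
    · exact (hu d h).2.2.2 (subset_tsupport _ ha)
    · exact (hu d h).2.2.1 (subset_tsupport _ ha)
  obtain ⟨a1, a2, a3, -, -, -, -, a8, -⟩ := hz d h b z hm
  have hp := Cst.p₁_ge hq.e₁
  have r0 : 0 < rr d z := by linarith
  have hG := GG_pos h r0
  refine ⟨hm, r0, by linarith, ?_, a1, hG, ?_⟩
  · have h1 := hm.2.2.1
    have e1 : rr d z ^ 2 = d.r2 z := Real.sq_sqrt (by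
      have h3 : 0 < rr d z := r0
      exact (Real.sqrt_pos.1 h3).le)
    rw [← e1] at h1
    exact (lt_of_pow_lt_pow_left₀ 2 (by linarith) h1).le
  · have e1 : H747.A.NG q d z = d.N q z + GG q d z := rfl
    rw [e1]
    nlinarith

theorem mA_le {μ : Cst → ℝ} (hq : AC n q) (hμ : 0 < μ q) {b : Bool} {N₁ : ℝ}
    (hf : PF q d b N₁ z) : mA μ q d z ≤ (μ q + 1) * GG q d z := by
  have h1 := hf.G0
  have h2 := hf.r1
  have h4 := hf.NG
  have hσ := hq.σ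
  have hσ1 := hq.σ1
  have hR := hq.R
  have k1 : GG q d z / rr d z ≤ GG q d z := div_le_self h1.le h2
  have k2 : q.σ / (400 * q.R) ≤ 1 / 400 := by
    rw [div_le_div_iff₀ (by positivity) (by norm_num)]
    nlinarith
  have k3 : 0 ≤ q.σ / (400 * q.R) := by positivity
  have k4 := mul_le_mul_of_nonneg_left k1 hμ.le
  have k5 : q.σ / (400 * q.R) * NG q d z ≤ 1 / 400 * (2 * GG q d z) := by
    calc q.σ / (400 * q.R) * NG q d z ≤ q.σ / (400 * q.R) * (2 * GG q d z) :=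
          mul_le_mul_of_nonneg_left h4 k3
      _ ≤ _ := mul_le_mul_of_nonneg_right k2 (by linarith)
  unfold mA
  linarith

theorem pays_MP {σ τ : Sl (VV n) (Fin n)} {W G : VV n → ℝ} {ρ₁ : ℝ} :
    Pays (H660.P.MP σ τ W G ρ₁) (ρ₁ * G z) (G z + σ.F W z) (τ.F W z) z where
  κ := by simp only [H660.P.MP]; norm_num
  ζ₁ := le_rfl
  ζ₂ := le_rfl
  ζy := le_rfl
  w₁ := by simp only [H660.P.MP]; exact le_of_eq (by ring)
  w₂ := by simp only [H660.P.MP]; exact le_of_eq (by ring)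
  wb := le_rfl
  wc := le_rfl

theorem pays_MPm {σ τ : Sl (VV n) (Fin n)} {W G : VV n → ℝ} {ρ₁ : ℝ} :
    Pays (H660.P.MPm σ τ W G ρ₁) (ρ₁ * G z) (σ.F W z) (G z + τ.F W z) z where
  κ := by simp only [H660.P.MPm]; norm_num
  ζ₁ := le_rfl
  ζ₂ := le_rfl
  ζy := le_rfl
  w₁ := by simp only [H660.P.MPm]; exact le_of_eq (by ring)
  w₂ := by simp only [H660.P.MPm]; exact le_of_eq (by ring)
  wb := le_rfl
  wc := le_rfl

/-- **`A1`, `A2` against `P1`, `P2`.** -/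
theorem pay_AP (hn : 1 ≤ n) (hS : RowSym n) (hU : RowPSup n) (hZ : RowPSz n) (hL : L.Ok)
    (hG : L.GP = GG) {k : Zo} (hk : k = .A1 ∨ k = .A2) (b : Bool) : PyF L k (zP b) := by
  obtain ⟨th, ht, H⟩ := ev_cost hn hS (fun q => 1 + (L.μA q + 1) / L.cP q) (fun q => by
    simp only [hL.μA.2 q, nbc hL.cP.2 q]) fun q => by
    have h1 := hL.μA.1 q
    have h2 := hL.cP.1 q
    have : 0 ≤ (L.μA q + 1) / L.cP q := by positivity
    linarith
  refine ⟨th, ht, fun e he hle => ((H e he hle).and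
    (ev_pass hU hZ (fun _ => 0) fun _ => rfl)).mono ?_⟩
  rintro q ⟨⟨hq, B, B₂, hB, nu, hA⟩, -, hP⟩ d h z htz hak haj a b'
  obtain ⟨hf, hχ⟩ := hA d h z htz k hk hak
  have pf := hP d h b z haj
  have hμ := hL.μA.1 q
  have hc := hL.cP.1 q
  have hm := mA_nn (μ := L.μA) hq hμ hf
  have hm1 := mA_le (μ := L.μA) hq hμ pf
  obtain ⟨f1, f2⟩ := F_nn hq.εn h z
  have g0 := pf.G0
  have ek : coz L e q d k = coA d.sx d.sy (d.W q) (mA L.μA q d) (d.ch q k) (e q) := by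
    rcases hk with rfl | rfl <;> rfl
  have hΛ : mA L.μA q d z ≤ (1 + (L.μA q + 1) / L.cP q) * (L.cP q * GG q d z) := by
    have e1 : (1 + (L.μA q + 1) / L.cP q) * (L.cP q * GG q d z) =
        L.cP q * GG q d z + (L.μA q + 1) * GG q d z := by
      field_simp
    rw [e1]
    have : 0 < L.cP q * GG q d z := mul_pos hc g0
    linarith
  have x1 := x₀_le hq hf.N0 hf.Fx
  have x2 := x₀_le hq hf.N0 hf.Fy
  rw [ek]
  cases b
  · have ej : Mz L q d (zP false) = H660.P.MPm d.sx d.sy (d.W q) (GG q d) (L.cP q) := by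
      rw [← hG]
      rfl
    rw [ej]
    exact payA hq.εn h nu hm hΛ hB hχ (x1.trans (by linarith)) (x2.trans (by linarith))
      (by linarith) (by linarith) pays_MPm
  · have ej : Mz L q d (zP true) = H660.P.MP d.sx d.sy (d.W q) (GG q d) (L.cP q) := by
      rw [← hG]
      rfl
    rw [ej]
    exact payA hq.εn h nu hm hΛ hB hχ (x1.trans (by linarith)) (x2.trans (by linarith))
      (by linarith) (by linarith) pays_MP

/-! ## Costs of the passes -/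

/-- The facts for the costs of the passes. -/
theorem ev_costP (hn : 1 ≤ n) (hL : L.Ok) (hO1 : OmOk (L.om .P1) .P1)
    (hO2 : OmOk (L.om .P2) .P2) : ∃ B : Cst → ℝ, NB_c' B ∧ (∀ q, 0 ≤ B q) ∧
      EvC fun q => ∀ d : Pk n, PkOk q d → ∀ b : Bool, ∀ z, d.tinf q z ≤ 0 →
        d.ch q (zP b) z ≠ 0 → 0 ≤ L.om (zP b) q d z ∧ L.CP q * L.om (zP b) q d z ≤ B q := by
  obtain ⟨b, hb, hb0, hbe⟩ := chP hn
  obtain ⟨K1, k1, h1⟩ := hO1
  obtain ⟨K2, k2, h2⟩ := hO2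
  refine ⟨fun q => L.CP q * ((|K1 q| + |K2 q|) * (b q ^ 2 + b q ^ 4)), fun q => ?_, fun q => ?_,
    ((h1.and h2).and hbe).mono ?_⟩
  · simp only [nbc hL.CP.2 q, nbc k1 q, nbc k2 q, hb q]
  · have := hL.CP.1 q
    positivity
  rintro q ⟨⟨h1, h2⟩, hbq⟩ d h b' z ht ha
  have hC := hL.CP.1 q
  have hJ := hbq d h z ht (zP b') (zP_or b') ha
  have hbb : 0 ≤ b q ^ 2 + b q ^ 4 := by positivity
  cases b'
  · obtain ⟨o1, o2⟩ := h2 d h z
    refine ⟨o1, mul_le_mul_of_nonneg_left ?_ hC.le⟩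
    refine (o2 (b q) (hb0 q) hJ).trans (mul_le_mul_of_nonneg_right ?_ hbb)
    linarith [le_abs_self (K2 q), abs_nonneg (K1 q)]
  · obtain ⟨o1, o2⟩ := h1 d h z
    refine ⟨o1, mul_le_mul_of_nonneg_left ?_ hC.le⟩
    refine (o2 (b q) (hb0 q) hJ).trans (mul_le_mul_of_nonneg_right ?_ hbb)
    linarith [le_abs_self (K1 q), abs_nonneg (K2 q)]

/-- **`P1` against `P1`, `P2` against `P2`.** -/
theorem pay_PP (hn : 1 ≤ n) (hU : RowPSup n) (hZ : RowPSz n) (hL : L.Ok) (hG : L.GP = GG)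
    (hO1 : OmOk (L.om .P1) .P1) (hO2 : OmOk (L.om .P2) .P2) (b : Bool) :
    PyF L (zP b) (zP b) := by
  obtain ⟨B, hB, hB0, hBe⟩ := ev_costP hn hL hO1 hO2
  have hN : NB_M₀ fun q => 34 * B q / L.cP q := fun q => by
    simp only [nbM hB q, nbM (nbc hL.cP.2) q]
  refine ⟨fun _ => 1, SmE.one, fun e he hle => ((ev_pass hU hZ _ hN).and hBe).mono ?_⟩
  rintro q ⟨⟨hq, hP⟩, hb⟩ d h z htz hak - a b'
  have pf := hP d h b z hak
  obtain ⟨o0, o1⟩ := hb d h b z htz hak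
  obtain ⟨f1, f2⟩ := F_nn hq.εn h z
  have hc := hL.cP.1 q
  have k1 := pf.N1
  rw [div_le_iff₀ hc] at k1
  have g0 := pf.G0
  have key : 34 * (L.CP q * L.om (zP b) q d z) ≤ L.cP q * GG q d z := by linarith
  cases b
  · have ej : Mz L q d (zP false) = PR.sw (H660.P.MP d.sy d.sx (d.W q) (GG q d) (L.cP q)) := by
      rw [← hG]
      rfl
    have ek : coz L e q d (zP false) = PR.sw (H660.P.coP d.sy d.sx (d.W q) (GG q d)
        (L.om (zP false) q d) (L.CP q)) := by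
      rw [← hG]
      rfl
    rw [ej, ek]
    exact PR.pay_sw (PR.coP_P g0.le f2 f1 key)
  · have ej : Mz L q d (zP true) = H660.P.MP d.sx d.sy (d.W q) (GG q d) (L.cP q) := by
      rw [← hG]
      rfl
    have ek : coz L e q d (zP true) = H660.P.coP d.sx d.sy (d.W q) (GG q d)
        (L.om (zP true) q d) (L.CP q) := by
      rw [← hG]
      rfl
    rw [ej, ek]
    exact PR.coP_P g0.le f1 f2 key

/-- **`P1`, `P2` against `A1`, `A2`.** -/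
theorem pay_PA (hn : 1 ≤ n) (hU : RowPSup n) (hZ : RowPSz n) (hL : L.Ok) (hG : L.GP = GG)
    (hO1 : OmOk (L.om .P1) .P1) (hO2 : OmOk (L.om .P2) .P2) (b : Bool) {j : Zo}
    (hj : j = .A1 ∨ j = .A2) : PyF L (zP b) j := by
  obtain ⟨B, hB, hB0, hBe⟩ := ev_costP hn hL hO1 hO2
  have hN : NB_M₀ fun q => 204 * B q * (2 * q.p₁ + 1) / L.μA q := fun q => by
    simp only [nbM hB q, nbM hL.μA.2 q]
    rfl
  have hM : EvC fun q => 128 / q.rT ^ 2 ≤ q.M₀ := evM fun _ => rfl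
  have s1 := H912.A.rowSup n .A1 (by simp)
  have s2 := H912.A.rowSup n .A2 (by simp)
  refine ⟨fun _ => 1, SmE.one, fun e he hle => (((ev_pass hU hZ _ hN).and hBe).and
    (hM.and (s1.and s2))).mono ?_⟩
  rintro q ⟨⟨⟨hq, hP⟩, hb⟩, hM, t1, t2⟩ d h z htz hak haj a b'
  have pf := hP d h b z hak
  obtain ⟨o0, o1⟩ := hb d h b z htz hak
  obtain ⟨f1, f2⟩ := F_nn hq.εn h z
  have hz : z ∈ OmA q d := by
    rcases hj with rfl | rfl
    · exact (t1 d h).2 (subset_tsupport _ haj)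
    · exact (t2 d h).2 (subset_tsupport _ haj)
  have hf := af_of hq h hz
  have hμ := hL.μA.1 q
  have hm := mA_nn (μ := L.μA) hq hμ hf
  have g0 := pf.G0
  have hC := hL.CP.1 q
  have hM1 := hq.M1
  have hrT := hq.rT
  have hp := Cst.p₁_ge hq.e₁
  -- `G ≤ F`
  have hN0 := hf.N0
  have hGN : GG q d z ≤ H747.A.NG q d z := by
    have e1 : H747.A.NG q d z = d.N q z + GG q d z := rfl
    have hN : q.M₀ ≤ d.N q z := h.N_ge _
    linarith
  have hNN : H747.A.NG q d z ≤ q.rT ^ 2 / 128 * H747.A.NG q d z ^ 2 := by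
    rw [div_le_iff₀ (by positivity)] at hM
    have k1 : 128 ≤ H747.A.NG q d z * q.rT ^ 2 :=
      hM.trans (mul_le_mul_of_nonneg_right hN0 (by positivity))
    nlinarith
  have gx : GG q d z ≤ d.sx.F (d.W q) z := hGN.trans (hNN.trans hf.Fx)
  have gy : GG q d z ≤ d.sy.F (d.W q) z := hGN.trans (hNN.trans hf.Fy)
  have hm6 : 6 * (34 * (L.CP q * L.om (zP b) q d z)) ≤ mA L.μA q d z := by
    have k1 := pf.N1
    rw [div_le_iff₀ hμ] at k1
    have k2 : 204 * B q ≤ L.μA q * (GG q d z / rr d z) := by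
      rw [mul_div_assoc', le_div_iff₀ pf.r0]
      have k3 : 204 * B q * rr d z ≤ 204 * B q * (2 * q.p₁ + 1) :=
        mul_le_mul_of_nonneg_left pf.r2 (by linarith [hB0 q])
      linarith
    have k3 : 0 ≤ q.σ / (400 * q.R) * H747.A.NG q d z := by
      have := hq.σ
      have := hq.R
      have : 0 ≤ H747.A.NG q d z := by linarith
      positivity
    unfold mA
    linarith
  have hκ : L.kA q ≤ 1 := by linarith [(hL.kA.1 q).2]
  have h0 : 0 ≤ 34 * (L.CP q * L.om (zP b) q d z) := by positivity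
  have ej : Mz L q d j = MA d.sx d.sy (d.W q) (mA L.μA q d) (L.kA q) := by
    rcases hj with rfl | rfl <;> rfl
  rw [ej]
  cases b
  · have ek : coz L e q d (zP false) = PR.sw (H660.P.coP d.sy d.sx (d.W q) (GG q d)
        (L.om (zP false) q d) (L.CP q)) := by
      rw [← hG]
      rfl
    have ej : MA d.sx d.sy (d.W q) (mA L.μA q d) (L.kA q) =
        PR.sw (MA d.sy d.sx (d.W q) (mA L.μA q d) (L.kA q)) := rfl
    rw [ej, ek]
    exact PR.pay_sw (PR.coP_A hκ hm f2 f1 gy h0 hm6)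
  · have ek : coz L e q d (zP true) = H660.P.coP d.sx d.sy (d.W q) (GG q d)
        (L.om (zP true) q d) (L.CP q) := by
      rw [← hG]
      rfl
    rw [ek]
    exact PR.coP_A hκ hm f1 f2 gx h0 hm6

/-! ## The tubes pay the costs of the passes -/

/-- The tube of the leaf. -/
def zT (b : Bool) : Zo := bif b then .T1 else .T2

/-- `NG ≤ C₃ Φ'(u₀)` where the tubes are alive. -/
def C₃ (q : Cst) : ℝ := 1 + prS q.e₁ (H509.TG.p₃ q ^ 2) / (Real.exp 2 * q.ν₁)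

theorem C₃_nb : NB_rT C₃ := fun _ => rfl

theorem C₃_le (hq : H509.TG.GT n q) (h : PkOk q d) (hz : H509.TG.TR q d z) :
    d.NG q z ≤ C₃ q * deriv d.Φ (d.u0 z) := by
  have h1 := hz.lo hq h
  have hν := hq.wc.ν₁
  have h2 := H509.TG.S_mono hq.gc.rad.e0 (qq_nonneg z) hz.q2
  have h3 : 0 ≤ prS q.e₁ (H509.TG.p₃ q ^ 2) := PkOk.prS_nonneg hq.gc.rad (sq_nonneg _)
  have he := Real.exp_pos (2 : ℝ)
  have h4 : Real.exp (d.u0 z) ≤ deriv d.Φ (d.u0 z) / (Real.exp 2 * q.ν₁) := by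
    rw [le_div_iff₀ (by positivity)]
    linarith
  have h5 : d.G0 q z ≤ prS q.e₁ (H509.TG.p₃ q ^ 2) *
      (deriv d.Φ (d.u0 z) / (Real.exp 2 * q.ν₁)) := by
    unfold Pk.G0
    rw [mul_comm]
    exact mul_le_mul h2 h4 (Real.exp_pos _).le h3
  unfold Pk.NG C₃
  refine (add_le_add_right h5 _).trans (le_of_eq ?_)
  field_simp

/-- The core. -/
theorem payPT {σ τ : Sl (VV n) (Fin n)} {v₁ v₂ W G om N a b : VV n → ℝ}
    {c C B₀ c₃ c₂ rT : ℝ} (hC : 0 ≤ C) (hc : 0 < c) (hB₀ : 0 ≤ B₀) (h3 : 1 ≤ c₃)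
    (hT0 : 0 < rT) (hT1 : rT ≤ 1)
    (hT2 : rT ≤ c / (34816 * (C * B₀) * c₃ ^ 2 + 1)) (h2 : 0 ≤ c₂)
    (hN : 34 * (C * B₀) * (1 + 4 * c₃ + c₂) / c ≤ N z) (hom : 0 ≤ om z) (homB : om z ≤ B₀)
    (hG0 : 0 ≤ G z) (hG : G z ≤ 2 * c₃ * N z) (hF0 : 0 ≤ σ.F W z)
    (hF : σ.F W z ≤ 512 * rT ^ 2 * c₃ ^ 2 * N z ^ 2) (hF0' : 0 ≤ τ.F W z)
    (hF' : τ.F W z ≤ c₂ * N z ^ 2) :
    34 * (H660.P.coP σ τ W G om C).dens σ τ v₁ v₂ W a b z ≤
      (H509.PT.MT1 c N).dens σ τ v₁ v₂ W a b z := by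
  have hCB : 0 ≤ C * B₀ := mul_nonneg hC hB₀
  rw [div_le_iff₀ hc] at hN
  have hX : 0 < 34816 * (C * B₀) * c₃ ^ 2 + 1 := by positivity
  rw [le_div_iff₀ hX] at hT2
  have hN0 : 0 ≤ N z := by
    by_contra hcon
    have : 0 ≤ 34 * (C * B₀) * (1 + 4 * c₃ + c₂) := by positivity
    nlinarith
  have q1 : 34 * (C * B₀) * (1 + 4 * c₃ + c₂) = 34 * (C * B₀) + 136 * (C * B₀) * c₃ +
      34 * (C * B₀) * c₂ := by ring
  have q2 : 0 ≤ 136 * (C * B₀) * c₃ := by positivity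
  have q3 : 0 ≤ 34 * (C * B₀) * c₂ := by positivity
  refine PR.pay_P1_T1 (B₀ := B₀) (C₁ := 2 * c₃) (C₂ := c₂) (φ := 512 * rT ^ 2 * c₃ ^ 2)
    (by norm_num) hC hN0 hom homB hG0 hG hF0 hF hF0' hF' (by linarith) ?_ (by linarith)
    (by linarith)
  have q4 : rT ^ 2 ≤ rT := by nlinarith
  have q5 : 0 ≤ 34816 * (C * B₀) * c₃ ^ 2 := by positivity
  calc 2 * (34 * (C * B₀) * (512 * rT ^ 2 * c₃ ^ 2))
      = 34816 * (C * B₀) * c₃ ^ 2 * rT ^ 2 := by ring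
    _ ≤ 34816 * (C * B₀) * c₃ ^ 2 * rT := mul_le_mul_of_nonneg_left q4 q5
    _ ≤ c := by nlinarith

/-- **`P1` against `T1`, `P2` against `T2`.** -/
theorem pay_PT (hn : 1 ≤ n) (hS : RowSym n) (hU : RowPSup n) (hZ : RowPSz n) (hL : L.Ok)
    (hG : L.GP = GG) (hO1 : OmOk (L.om .P1) .P1) (hO2 : OmOk (L.om .P2) .P2) (b : Bool) :
    PyF L (zP b) (zT b) := by
  obtain ⟨β, hβ, hβ0, hβe⟩ := chP0 hn
  obtain ⟨K1, k1, h1⟩ := hO1
  obtain ⟨K2, k2, h2⟩ := hO2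
  obtain ⟨C, hC, hC0, hSy⟩ := hS (fun _ => 1) (fun _ => rfl) fun _ => one_pos
  have nb1 : NB_rT fun q => (|K1 q| + |K2 q|) * (β q ^ 2 + β q ^ 4) := fun q => by
    simp only [k1 q, k2 q, hβ q]
  set B₀ : Cst → ℝ := fun q => (|K1 q| + |K2 q|) * (β q ^ 2 + β q ^ 4) with hB₀d
  have hB₀ : ∀ q, 0 ≤ B₀ q := fun q => by positivity
  have eT : EvC fun q => q.rT ≤ min 1 (L.cT q / (34816 * (L.CP q * B₀ q) * C₃ q ^ 2 + 1)) := by
    refine evT (fun q => ?_) fun q => ?_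
    · simp only [hL.cT.2 q, hL.CP.2 q, nb1 q, C₃_nb q]
    · have a1 := hL.cT.1 q
      have a2 := hL.CP.1 q
      have a3 := hB₀ q
      exact lt_min one_pos (by positivity)
  have eM : EvC fun q => 34 * (L.CP q * B₀ q) * (1 + 4 * C₃ q + 8 * n * C q ^ 2 * C₃ q ^ 2) /
      L.cT q ≤ q.M₀ := by
    refine evM fun q => ?_
    simp only [nbM (nbc hL.cT.2) q, nbM (nbc hL.CP.2) q, nbM (nbc nb1) q, nbM (nbc C₃_nb) q,
      hC q]
  refine ⟨fun _ => 1, SmE.one, fun e he hle => ((((ev_pass hU hZ (fun _ => 0) fun _ => rfl).and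
    (H509.TG.evGT n)).and ((EvC.litSm n).and hβe)).and (((h1.and h2).and (eT.and eM)).and
    (hSy.and (H912.A.closeP n (fun _ => 1) fun _ => rfl)))).mono ?_⟩
  rintro q ⟨⟨⟨⟨hq, hP⟩, hT⟩, hLs, hb⟩, ⟨⟨h1, h2⟩, eT, eM⟩, hSq, hcl⟩ d h z htz hak haj a b'
  have pf := hP d h b z hak
  have hLd := hLs d h
  obtain ⟨hbT1, hbT2⟩ := hb d h z
  obtain ⟨f1, f2⟩ := F_nn hq.εn h z
  have hp := DC.p₁_big hq.e₁
  have hbb : 0 ≤ β q ^ 2 + β q ^ 4 := by positivity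
  have hr4 : 4 < d.r2 z := by
    have := pf.om.2.1
    nlinarith
  have hr9 : d.r2 z ≤ (3 * q.p₁) ^ 2 := by
    have := pf.om.2.2.1
    nlinarith
  have hC1 := hcl one_pos d h z pf.om.1 hr4 hr9
  have hNG : H747.A.NG q d z ≤ 2 * d.NG q z := by
    have := (abs_le.1 hC1.NG).2
    linarith
  have hTR : H509.TG.TR q d z := by
    cases b
    · exact (H509.TG.alive_T2 hT h hLd haj).1
    · exact (H509.TG.alive_T1 hT h hLd haj).1
  have hC3 := C₃_le hT h hTR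
  have hNa : q.M₀ ≤ deriv d.Φ (d.u0 z) := h.N_ge _
  have hM1 := hq.M1
  have hc31 : 1 ≤ C₃ q := by
    have h3 : 0 ≤ prS q.e₁ (H509.TG.p₃ q ^ 2) := PkOk.prS_nonneg hT.gc.rad (sq_nonneg _)
    have hν := hT.wc.ν₁
    have : 0 ≤ prS q.e₁ (H509.TG.p₃ q ^ 2) / (Real.exp 2 * q.ν₁) := by positivity
    unfold C₃
    linarith
  have hNG2 : H747.A.NG q d z ≤ 2 * C₃ q * deriv d.Φ (d.u0 z) := by linarith
  have g0 := pf.G0
  have hGN : GG q d z ≤ H747.A.NG q d z := by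
    have e1 : H747.A.NG q d z = d.N q z + GG q d z := rfl
    have hN : q.M₀ ≤ d.N q z := h.N_ge _
    linarith
  have hNG0 : 0 ≤ H747.A.NG q d z := by linarith
  have hW := hSq d h z pf.om.1
  have hWd := hW.2.2.2.2.1
  have sq1 : ∀ {x : ℝ}, 0 ≤ x → x ≤ 2 * C₃ q * deriv d.Φ (d.u0 z) →
      x ^ 2 ≤ 4 * C₃ q ^ 2 * deriv d.Φ (d.u0 z) ^ 2 := fun h0 h1 => by
    refine (pow_le_pow_left₀ h0 h1 2).trans (le_of_eq (by ring))
  have hNGs := sq1 hNG0 hNG2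
  have hcT := hL.cT.1 q
  have hCP := hL.CP.1 q
  have hcc : 0 ≤ 8 * (n : ℝ) * C q ^ 2 * C₃ q ^ 2 := by positivity
  -- the large gradient
  have big : ∀ {f : Fin n → ℝ}, (∀ i, |f i| ≤ C q * H747.A.NG q d z) →
      2 * ∑ i, f i ^ 2 ≤ 8 * n * C q ^ 2 * C₃ q ^ 2 * deriv d.Φ (d.u0 z) ^ 2 := fun {f} hf => by
    have k1 := sum_le hf
    have k2 : (C q * H747.A.NG q d z) ^ 2 ≤
        C q ^ 2 * (4 * C₃ q ^ 2 * deriv d.Φ (d.u0 z) ^ 2) := by
      rw [mul_pow]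
      exact mul_le_mul_of_nonneg_left hNGs (sq_nonneg _)
    have k3 := mul_le_mul_of_nonneg_left k2 (Nat.cast_nonneg (α := ℝ) n)
    linarith
  -- the small gradient
  have small : Wc2 q d b z < (8 * q.rT * H747.A.NG q d z) ^ 2 := pf.om.2.2.2
  have small' : 2 * Wc2 q d b z ≤ 512 * q.rT ^ 2 * C₃ q ^ 2 * deriv d.Φ (d.u0 z) ^ 2 := by
    have k2 : (8 * q.rT * H747.A.NG q d z) ^ 2 ≤
        64 * q.rT ^ 2 * (4 * C₃ q ^ 2 * deriv d.Φ (d.u0 z) ^ 2) := by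
      rw [mul_pow]
      have := mul_le_mul_of_nonneg_left hNGs (by positivity : 0 ≤ (8 * q.rT) ^ 2)
      linarith
    linarith
  have rT1 := (le_min_iff.1 eT).1
  have rT2 := (le_min_iff.1 eT).2
  cases b
  · obtain ⟨o1, o2⟩ := h2 d h z
    have o3 : L.om .P2 q d z ≤ B₀ q := by
      refine (o2 (β q) (hβ0 q) (hbT2 haj hak)).trans (mul_le_mul_of_nonneg_right ?_ hbb)
      linarith [le_abs_self (K2 q), abs_nonneg (K1 q)]
    have ek : coz L e q d (zP false) = PR.sw (H660.P.coP d.sy d.sx (d.W q) (GG q d)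
        (L.om .P2 q d) (L.CP q)) := by
      rw [← hG]
      rfl
    have ej : Mz L q d (zT false) = PR.sw (H509.PT.MT1 (L.cT q) (H338.TC.Na d)) := rfl
    rw [ej, ek]
    have gy := (Γy hq.εn h (d.W q) z).2
    have gx := (Γx hq.εn h (d.W q) z).2
    exact PR.pay_sw (payPT hCP.le hcT (hB₀ q) hc31 hq.rT rT1 rT2 hcc (eM.trans hNa) o1 o3 g0.le
      (hGN.trans hNG2) f2 (le_trans gy small') f1 (le_trans gx (big hWd.x)))
  · obtain ⟨o1, o2⟩ := h1 d h z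
    have o3 : L.om .P1 q d z ≤ B₀ q := by
      refine (o2 (β q) (hβ0 q) (hbT1 haj hak)).trans (mul_le_mul_of_nonneg_right ?_ hbb)
      linarith [le_abs_self (K1 q), abs_nonneg (K2 q)]
    have ek : coz L e q d (zP true) = H660.P.coP d.sx d.sy (d.W q) (GG q d)
        (L.om .P1 q d) (L.CP q) := by
      rw [← hG]
      rfl
    have ej : Mz L q d (zT true) = H509.PT.MT1 (L.cT q) (H338.TC.Na d) := rfl
    rw [ej, ek]
    have gy := (Γy hq.εn h (d.W q) z).2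
    have gx := (Γx hq.εn h (d.W q) z).2
    exact payPT hCP.le hcT (hB₀ q) hc31 hq.rT rT1 rT2 hcc (eM.trans hNa) o1 o3 g0.le
      (hGN.trans hNG2) f1 (le_trans gx small') f2 (le_trans gy (big hWd.y))

end Vale.Agent.P088.R2.H710.PY
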