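import Vale.Agent.P088.R2.H509.EP.Lit2
import Vale.Agent.P088.R2.H606.EP.Prf

/-!
# P088, stage 3, EST': the gradient of the flat weight at the passes
-/

open Set Filter
open scoped ContDiff Topology

noncomputable section

namespace Vale.Agent.P088.R2.H710.GP

open Vale.Agent.P088.LR Vale.Agent.P088.HY Vale.Agent.P088.R2.H31.EP
open Vale.Agent.P088.R2.H475 (en_add en_sub en_smul)
open Vale.Agent.P088.R2.H606.EP (prS₁)

variable {n : ℕ}

/-- The euclidean length. -/
def en (x : V n) : ℝ := √(HY.sq x)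

theorem en_nn (x : V n) : 0 ≤ en x := Real.sqrt_nonneg _

theorem en_sq (x : V n) : en x ^ 2 = HY.sq x := Real.sq_sqrt (by unfold HY.sq; positivity)

theorem en_tri (x y : V n) : en (x + y) ≤ en x + en y := en_add x y

theorem en_tri' (x y : V n) : en (x - y) ≤ en x + en y := en_sub x y

theorem en_sm (c : ℝ) (x : V n) : en (c • x) = |c| * en x := en_smul c x

/-- `|N a + v|` from below. -/
theorem en_lo (a v : V n) {N : ℝ} (hN : 0 ≤ N) : N * en a - en v ≤ en (N • a + v) := by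
  have h := en_tri' (N • a + v) v
  rw [add_sub_cancel_right, en_sm, abs_of_nonneg hN] at h
  linarith

theorem en_lo' (a v : V n) {N : ℝ} (hN : 0 ≤ N) : en v - N * en a ≤ en (N • a + v) := by
  have h := en_tri' (N • a + v) (N • a)
  rw [add_sub_cancel_left, en_sm, abs_of_nonneg hN] at h
  linarith

/-- The other slot: `|N b - v| ≥ N |a + b| - |N a + v|`. -/
theorem en_oth (a b v : V n) {N : ℝ} (hN : 0 ≤ N) :
    N * en (a + b) - en (N • a + v) ≤ en (N • b - v) := by
  have h := en_tri (N • a + v) (N • b - v)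
  have e : N • a + v + (N • b - v) = N • (a + b) := by rw [smul_add]; abel
  rw [e, en_sm, abs_of_nonneg hN] at h
  linarith

/-! ## The gradient -/

/-- The gradient of the level. -/
def gl (l : V n → ℝ) (x : V n) : V n := fun i => pd i l x

/-- The gradients of the flat weight. -/
def gx (d : Pk n) (q : Cst) (z : VV n) : V n := fun i => dx i (d.W0 q) z
def gy (d : Pk n) (q : Cst) (z : VV n) : V n := fun i => dy i (d.W0 q) z

/-- The coefficient of `x - y`. -/
def cq (d : Pk n) (q : Cst) (z : VV n) : ℝ := 2 * (Real.exp (d.u0 z) * prS₁ q.e₁ (qq z))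

/-- The derivative of `|x - y|²`. -/
def Qd (z : VV n) : VV n →L[ℝ] ℝ :=
  ∑ i, (2 * (z.1 i - z.2 i)) • ((ContinuousLinearMap.proj (R := ℝ) (φ := fun _ : Fin n => ℝ) i).comp
    (ContinuousLinearMap.fst ℝ (V n) (V n) - ContinuousLinearMap.snd ℝ (V n) (V n)))

theorem Qd_apply (z v : VV n) : Qd z v = 2 * ∑ i, (z.1 i - z.2 i) * (v.1 i - v.2 i) := by
  unfold Qd
  rw [sum_apply, Finset.mul_sum]
  refine Finset.sum_congr rfl fun i _ => ?_
  simp
  ring

theorem qq_fd (z : VV n) : HasFDerivAt (fun z : VV n => qq z) (Qd z) z := by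
  have h : (fun z : VV n => qq z) = fun z => ∑ i, (z.1 i - z.2 i) ^ 2 := by
    funext z
    rfl
  rw [h]
  refine HasFDerivAt.fun_sum fun i _ => ?_
  have h1 : HasFDerivAt (fun z : VV n => z.1 i - z.2 i)
      ((ContinuousLinearMap.proj (R := ℝ) (φ := fun _ : Fin n => ℝ) i).comp
      (ContinuousLinearMap.fst ℝ (V n) (V n) - ContinuousLinearMap.snd ℝ (V n) (V n))) z :=
    ((ContinuousLinearMap.proj (R := ℝ) (φ := fun _ : Fin n => ℝ) i).comp
      (ContinuousLinearMap.fst ℝ (V n) (V n) - ContinuousLinearMap.snd ℝ (V n) (V n))).hasFDerivAt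
  refine (h1.pow 2).congr_fderiv ?_
  ext v <;> simp

variable {q : Cst} {d : Pk n}

theorem u0_fd (h : PkOk q d) (z : VV n) : HasFDerivAt d.u0
    ((fderiv ℝ d.l z.1).comp (ContinuousLinearMap.fst ℝ (V n) (V n)) +
      (fderiv ℝ d.l z.2).comp (ContinuousLinearMap.snd ℝ (V n) (V n))) z := by
  have hl : Differentiable ℝ d.l := h.l_sm.differentiable (by simp)
  have h1 : HasFDerivAt (fun z : VV n => d.l z.1)
      ((fderiv ℝ d.l z.1).comp (ContinuousLinearMap.fst ℝ (V n) (V n))) z :=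
    (hl z.1).hasFDerivAt.comp z hasFDerivAt_fst
  have h2 : HasFDerivAt (fun z : VV n => d.l z.2)
      ((fderiv ℝ d.l z.2).comp (ContinuousLinearMap.snd ℝ (V n) (V n))) z :=
    (hl z.2).hasFDerivAt.comp z hasFDerivAt_snd
  exact h1.add h2

/-- **The derivative of the flat weight.** -/
theorem fd_W0 (h : PkOk q d) (he : 0 < q.e₁) (z v : VV n) :
    fderiv ℝ (d.W0 q) z v = d.NG q z * (fderiv ℝ d.l z.1 v.1 + fderiv ℝ d.l z.2 v.2) +
      cq d q z * ∑ i, (z.1 i - z.2 i) * (v.1 i - v.2 i) := by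
  have hu := u0_fd h z
  have hΦ : HasDerivAt d.Φ (deriv d.Φ (d.u0 z)) (d.u0 z) :=
    ((h.Φs.differentiable (by simp)) _).hasDerivAt
  have h1 := hΦ.comp_hasFDerivAt z hu
  have h2 := hu.exp
  have h3 := (H606.EP.prS_d1 he (qq z)).comp_hasFDerivAt z (qq_fd z)
  have h4 := h1.add (h2.mul h3)
  have h5 : HasFDerivAt (d.W0 q) _ z := h4
  rw [h5.fderiv]
  simp only [add_apply, smul_apply, smul_eq_mul,
    ContinuousLinearMap.comp_apply, ContinuousLinearMap.coe_fst', ContinuousLinearMap.coe_snd',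
    Qd_apply, Function.comp_apply]
  unfold Pk.NG Pk.G0 cq
  ring

theorem gx_eq (h : PkOk q d) (he : 0 < q.e₁) (z : VV n) :
    gx d q z = d.NG q z • gl d.l z.1 + cq d q z • (z.1 - z.2) := by
  funext i
  show dx i (d.W0 q) z = _
  unfold dx
  rw [fd_W0 h he]
  have e : ∑ j, (z.1 j - z.2 j) * ((Pi.single i (1 : ℝ) : V n) j - (0 : V n) j) =
      z.1 i - z.2 i := by
    rw [Finset.sum_eq_single i]
    · simp
    · intro j _ hj
      simp [Pi.single_eq_of_ne hj]
    · simp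
  simp only [Pi.add_apply, Pi.smul_apply, smul_eq_mul, Pi.sub_apply, gl, e]
  simp [pd]

theorem gy_eq (h : PkOk q d) (he : 0 < q.e₁) (z : VV n) :
    gy d q z = d.NG q z • gl d.l z.2 - cq d q z • (z.1 - z.2) := by
  funext i
  show dy i (d.W0 q) z = _
  unfold dy
  rw [fd_W0 h he]
  have e : ∑ j, (z.1 j - z.2 j) * ((0 : V n) j - (Pi.single i (1 : ℝ) : V n) j) =
      -(z.1 i - z.2 i) := by
    rw [Finset.sum_eq_single i]
    · simp
    · intro j _ hj
      simp [Pi.single_eq_of_ne hj]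
    · simp
  simp only [Pi.sub_apply, Pi.smul_apply, smul_eq_mul, gl, e]
  simp [pd]
  ring

theorem sq_gx (z : VV n) : ∑ i, dx i (d.W0 q) z ^ 2 = en (gx d q z) ^ 2 := (en_sq _).symm

theorem sq_gy (z : VV n) : ∑ i, dy i (d.W0 q) z ^ 2 = en (gy d q z) ^ 2 := (en_sq _).symm

/-- `|x - y|`. -/
def rr (z : VV n) : ℝ := en (z.1 - z.2)

theorem rr_nn (z : VV n) : 0 ≤ rr z := en_nn _

theorem rr_sq (z : VV n) : rr z ^ 2 = qq z := en_sq _

/-- The length of the second part of the gradients: `L G₀`. -/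
theorem cq_rr (hr : H509.Rad.Ok q.e₁ rp) {z : VV n} (h0 : 0 < rr z) :
    cq d q z * rr z = prL q.e₁ (rr z) * d.G0 q z := by
  have h1 := hr.pp.Ph1_L h0
  have e1 : 2 * rr z * prS₁ q.e₁ (rr z ^ 2) = prL q.e₁ (rr z) * prS q.e₁ (rr z ^ 2) := h1
  unfold cq Pk.G0
  rw [← rr_sq]
  linear_combination Real.exp (d.u0 z) * e1

theorem cq_pos (hr : H509.Rad.Ok q.e₁ rp) (z : VV n) : 0 ≤ cq d q z := by
  have h1 : 0 < prS₁ q.e₁ (qq z) := hr.pp.Ph1_pos (qq_nonneg z)
  unfold cq
  positivity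

end Vale.Agent.P088.R2.H710.GP
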